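import Vale.Agent.P310.WLDefs

/-!
# P310: running times, exponential time, and the problem with the dimension in the input
-/

namespace Vale.Agent.N310X

open Turing Vale.Agent.P310

/-- Started with the word `w`, the Turing machine `M` halts after at most `T` steps with one bit
as its output, and this bit is `true` iff `P` holds. -/
def Answers (M : TM2ComputableAux Bool Bool) (w : List Bool) (P : Prop) (T : ℕ) : Prop :=
  ∃ b : Bool, (b = true ↔ P) ∧ Nonempty (TM2OutputsInTime M.tm (w.map M.inputAlphabet.symm)
    (some [M.outputAlphabet.symm b]) T)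

/-- `M` decides `k`-WL equivalence, in at most `T n` steps on pairs of graphs with `n` vertices. -/
def Decides (M : TM2ComputableAux Bool Bool) (k : ℕ) (T : ℕ → ℕ) : Prop :=
  ∀ (n : ℕ) (G H : SimpleGraph (Fin n)), Answers M (inputWord G H) (WLEquiv k G H) (T n)

/-- The languages which are decided in time `2 ^ p(|w|)` for a polynomial `p`. -/
def EXPTIME : Set (Set (List Bool)) :=
  {L | ∃ (M : TM2ComputableAux Bool Bool) (p : Polynomial ℕ),
    ∀ w, Answers M w (w ∈ L) (2 ^ p.eval w.length)}

/-- Polynomial-time many-one reducibility. -/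
def Reduces (L L' : Set (List Bool)) : Prop :=
  ∃ f : List Bool → List Bool, Nonempty (TM2ComputableInPolyTime id id f) ∧ ∀ w, w ∈ L ↔ f w ∈ L'

/-- The word `c` (a one before each of its bits), a zero, and the two adjacency matrices. -/
noncomputable def word (c : List Bool) {n : ℕ} (G H : SimpleGraph (Fin n)) : List Bool :=
  (c.flatMap fun b => [true, b]) ++ false :: inputWord G H

/-- The language of all triples `(k, G, H)` with `k ≥ 2` and `G ≡_k H`; `k` is written as
`code k`. -/
def wlLang (code : ℕ → List Bool) : Set (List Bool) :=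
  {w | ∃ (k n : ℕ) (G H : SimpleGraph (Fin n)), 2 ≤ k ∧ w = word (code k) G H ∧ WLEquiv k G H}

end Vale.Agent.N310X
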