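import Vale.Agent.N310X.Num
import Vale.Agent.P310.H853.Plug

/-!
# P310: the small graphs are computable in polynomial time
-/

namespace Vale.Agent.N310X

open Vale.Agent.P310 Vale.Agent.Lib.PolyTime

variable {α β : Type*} [Enc α] [Enc β]

/-- The system `N a` is computable in polynomial time. -/
structure PTN (N : α → NSys) : Prop where
  nV : PT ∅ fun a => (N a).nV
  nE : PT ∅ fun a => (N a).nE
  act : PT ∅ fun p : α × ℕ × ℕ => (N p.1).act p.2.1 p.2.2
  sv : PT ∅ fun p : α × ℕ × ℕ => (N p.1).sv p.2.1 p.2.2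
  par : PT ∅ fun p : α × ℕ => (N p.1).par p.2

namespace PTN

variable {N : α → NSys} {n e al x y l s : α → ℕ} (par' : Bool)

theorem comp (h : PTN N) {f : β → α} (hf : PT ∅ f) : PTN fun a => N (f a) :=
  ⟨h.nV.comp hf, h.nE.comp hf, h.act.comp ((hf.comp PT.fst').pair PT.snd'),
    h.sv.comp ((hf.comp PT.fst').pair PT.snd'), h.par.comp ((hf.comp PT.fst').pair PT.snd')⟩

theorem nU (h : PTN N) : PT ∅ fun a => (N a).nU :=
  (h.nV.mul (PT.const 2)).add (h.nE.mul (PT.const 16))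

theorem nL (h : PTN N) : PT ∅ fun a => (N a).nL := (h.nV.add h.nE).mul (h.nU.add (PT.const 1))

theorem nTot (h : PTN N) : PT ∅ fun a => (N a).nTot := h.nU.mul (h.nL.add (PT.const 1))

theorem okN (h : PTN N) (he : PT ∅ e) (hal : PT ∅ al) :
    PT ∅ fun a => (N a).okN par' (e a) (al a) := by
  refine PT.eqNat ((PT.length (PT.filter (PT.const (List.range 4)) ?_)).mod (PT.const 2)) ?_
  · exact (h.act.comp (PT.fst'.pair ((he.comp PT.fst').pair PT.snd'))).and
      (PT.testBit (hal.comp PT.fst') PT.snd')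
  · refine PT.ite (((PT.const par').and (h.par.comp (PT.id.pair he))).congr fun a => ?_)
      (PT.const 1) (PT.const 0)
    simp

theorem incN (h : PTN N) (hv : PT ∅ x) (hs : PT ∅ s) (he : PT ∅ e) (hal : PT ∅ al) :
    PT ∅ fun a => (N a).incN par' (x a) (s a) (e a) (al a) := by
  refine (h.okN par' he hal).and (PT.any (PT.const (List.range 4)) ?_)
  exact (h.act.comp (PT.fst'.pair ((he.comp PT.fst').pair PT.snd'))).and
    (((h.sv.comp (PT.fst'.pair ((he.comp PT.fst').pair PT.snd'))).eqNat (hv.comp PT.fst')).and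
      (PTD.eqBool (PT.testBit (hal.comp PT.fst') PT.snd') ((hs.comp PT.fst').eqNat (PT.const 1))))

theorem baseAdjN (h : PTN N) (hx : PT ∅ x) (hy : PT ∅ y) :
    PT ∅ fun a => (N a).baseAdjN par' (x a) (y a) := by
  have hV := h.nV.mul (PT.const 2)
  have hF : PT ∅ fun _ : α => 16 := PT.const 16
  exact PT.ite (p := fun a => x a < (N a).nV * 2) (hx.lt hV)
    (PT.ite (p := fun a => y a < (N a).nV * 2) (hy.lt hV) (PT.const false)
      (h.incN par' (hx.div (PT.const 2)) (hx.mod (PT.const 2)) ((hy.sub hV).div hF)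
        ((hy.sub hV).mod hF)))
    (PT.ite (p := fun a => y a < (N a).nV * 2) (hy.lt hV)
      (h.incN par' (hy.div (PT.const 2)) (hy.mod (PT.const 2)) ((hx.sub hV).div hF)
        ((hx.sub hV).mod hF)) (PT.const false))

theorem leafN (h : PTN N) (hx : PT ∅ x) (hl : PT ∅ l) :
    PT ∅ fun a => (N a).leafN par' (x a) (l a) := by
  have hV := h.nV.mul (PT.const 2)
  have hF : PT ∅ fun _ : α => 16 := PT.const 16
  exact (PT.ite (p := fun a => x a < (N a).nV * 2) (hx.lt hV) (PT.const true)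
    (h.okN par' ((hx.sub hV).div hF) ((hx.sub hV).mod hF))).and
    (hl.lt (((PT.ite (p := fun a => x a < (N a).nV * 2) (hx.lt hV) (hx.div (PT.const 2))
      (h.nV.add ((hx.sub hV).div hF))).add (PT.const 1)).mul (h.nU.add (PT.const 1))))

theorem adjN (h : PTN N) (hx : PT ∅ x) (hy : PT ∅ y) :
    PT ∅ fun a => (N a).adjN par' (x a) (y a) := by
  have hL := h.nL.add (PT.const 1)
  have hu := hx.div hL
  have hl := hx.mod hL
  have hu' := hy.div hL
  have hl' := hy.mod hL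
  have h0 := hl.eqNat (PT.const 0)
  have h0' := hl'.eqNat (PT.const 0)
  exact (hx.lt h.nTot).and ((hy.lt h.nTot).and
    ((h0.and (h0'.and (h.baseAdjN par' hu hu'))).or
      ((hu.eqNat hu').and
        ((h0.and (h0'.not.and (h.leafN par' hu (hl'.sub (PT.const 1))))).or
          (h0'.and (h0.not.and (h.leafN par' hu (hl.sub (PT.const 1)))))))))

theorem bitsN (h : PTN N) (hn : PT ∅ n) (hnb : PBd n) :
    PT ∅ fun a => (N a).bitsN par' (n a) := by
  have hR := PT.range hn hnb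
  refine PT.flatMap hR (PT.map (hR.comp PT.fst') ?_)
  exact (h.comp PT.fst'.fst).adjN par' PT.fst'.snd PT.snd'

end PTN

/-- The simple Horn data `S a` are computable in polynomial time. -/
structure PTS (S : α → SData) : Prop where
  b : PT ∅ fun a => (S a).b
  h : PT ∅ fun a => (S a).h
  nT : PT ∅ fun a => (S a).nT
  rules : PT ∅ fun a => (S a).rules

namespace PTS

variable {S : α → SData} {K k ρ i t e j c : α → ℕ}

theorem comp (h : PTS S) {f : β → α} (hf : PT ∅ f) : PTS fun a => S (f a) :=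
  ⟨h.b.comp hf, h.h.comp hf, h.nT.comp hf, h.rules.comp hf⟩

theorem nS (h : PTS S) : PT ∅ fun a => (S a).nS := PT.length h.rules

theorem rule (h : PTS S) (hρ : PT ∅ ρ) : PT ∅ fun a => (S a).rule (ρ a) :=
  PT.getD h.rules hρ (PT.const _)

theorem nLk (h : PTS S) (hK : PT ∅ K) : PT ∅ fun a => (S a).nLk (K a) :=
  h.nS.mul ((PT.const 2).mul ((hK.add (PT.const 1)).mul (PT.const 3)))

theorem nKd (h : PTS S) (hK : PT ∅ K) : PT ∅ fun a => (S a).nKd (K a) :=
  (h.nT.add (h.nS.mul ((PT.const 2).mul (hK.add (PT.const 1))))).mul (PT.const 3)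

theorem nEq (h : PTS S) (hK : PT ∅ K) : PT ∅ fun a => (S a).nEq (K a) :=
  (h.nLk hK).add ((h.nS.mul (PT.const 3)).add (PT.const 4))

theorem privN (h : PTS S) (hK : PT ∅ K) (hρ : PT ∅ ρ) (hi : PT ∅ i) (ht : PT ∅ t) :
    PT ∅ fun a => (S a).privN (K a) (ρ a) (i a) (t a) :=
  h.nT.add ((ht.add ((hK.add (PT.const 1)).mul hi)).add
    (((PT.const 2).mul (hK.add (PT.const 1))).mul hρ))

theorem klN (h : PTS S) (hK : PT ∅ K) (he : PT ∅ e) : PT ∅ fun a => (S a).klN (K a) (e a) := by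
  have c0 : PT ∅ fun _ : α => 0 := PT.const 0
  have c1 : PT ∅ fun _ : α => 1 := PT.const 1
  have c2 : PT ∅ fun _ : α => 2 := PT.const 2
  have c3 : PT ∅ fun _ : α => 3 := PT.const 3
  have h3 := (hK.add c1).mul c3
  have h6 := c2.mul h3
  have hρ := he.div h6
  have hi := (he.mod h6).div h3
  have ht := ((he.mod h6).mod h3).div c3
  have hm := ((he.mod h6).mod h3).mod c3
  have hd := he.sub (h.nLk hK)
  have hρ' := hd.div c3
  have hm' := hd.mod c3
  have hu := hd.sub (h.nS.mul c3)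
  refine PT.ite (p := fun a => e a < (S a).nLk (K a)) (he.lt (h.nLk hK)) ?_
    (PT.ite (p := fun a => e a - (S a).nLk (K a) < (S a).nS * 3) (hd.lt (h.nS.mul c3)) ?_ ?_)
  · exact PT.cons (hm.add (c3.mul (PT.ite (ht.eqNat c0)
      ((PT.ite (hi.eqNat c0) (h.rule hρ).fst (h.rule hρ).snd.fst).mod h.nT)
      (h.privN hK hρ hi (ht.sub c1))))) (PT.cons (hm.add (c3.mul (h.privN hK hρ hi ht))) PT.nil)
  · exact PT.cons (((hm'.add c1).mod c3).add (c3.mul (h.privN hK hρ' c0 hK)))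
      (PT.cons (((hm'.add c2).mod c3).add (c3.mul (h.privN hK hρ' c1 hK)))
        (PT.cons (hm'.add (c3.mul ((h.rule hρ').snd.snd.fst.mod h.nT))) PT.nil))
  · exact PT.cons (PT.ite (hu.lt c3) (hu.add (c3.mul (c0.mod h.nT)))
      (c0.add (c3.mul (c1.mod h.nT)))) PT.nil

theorem symN (h : PTS S) (hK : PT ∅ K) (he : PT ∅ e) (ht : PT ∅ t) (hj : PT ∅ j) (hc : PT ∅ c) :
    PT ∅ fun a => (S a).symN (K a) (e a) (t a) (j a) (c a) := by
  have hd := he.sub (h.nLk hK)
  have hR := (h.rule (hd.div (PT.const 3))).snd.snd.snd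
  exact PT.ite (p := fun a => e a < (S a).nLk (K a)) (he.lt (h.nLk hK)) hc
    (PT.ite (p := fun a => e a - (S a).nLk (K a) < (S a).nS * 3) (hd.lt (h.nS.mul (PT.const 3)))
      (PT.ite (hj.eqNat hR.fst) ((PT.ite (ht.eqNat (PT.const 2)) hR.snd.snd hR.snd.fst).mod h.b) hc)
      ((PT.const 0).mod h.b))

theorem nsys (h : PTS S) (hK : PT ∅ K) (hk : PT ∅ k) : PTN fun a => (S a).nsys (K a) (k a) := by
  refine ⟨((h.nKd hK).mul (hk.mul h.b)).add ((h.nEq hK).mul (hk.mul (PT.const 2))),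
    ((h.nEq hK).mul (hk.mul h.b)).add ((h.nEq hK).mul hk), ?_, ?_, ?_⟩
  · have h' := h.comp (PT.fst' (α := α) (β := ℕ × ℕ))
    have hK' := hK.comp (PT.fst' (α := α) (β := ℕ × ℕ))
    have hk' := hk.comp (PT.fst' (α := α) (β := ℕ × ℕ))
    have hc : PT ∅ fun p : α × ℕ × ℕ => p.2.1 := PT.snd'.fst
    have ht : PT ∅ fun p : α × ℕ × ℕ => p.2.2 := PT.snd'.snd
    have hB := (h'.nEq hK').mul (hk'.mul h'.b)
    have hr := (hc.sub hB).mod hk'
    exact PT.ite (hc.lt hB)
      ((ht.lt (PT.length (h'.klN hK' (hc.div (hk'.mul h'.b))))).or (ht.eqNat (PT.const 3)))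
      ((ht.eqNat (PT.const 0)).or (((ht.eqNat (PT.const 1)).and ((PT.const 0).lt hr)).or
        ((ht.eqNat (PT.const 2)).and ((hr.add (PT.const 1)).lt hk'))))
  · have h' := h.comp (PT.fst' (α := α) (β := ℕ × ℕ))
    have hK' := hK.comp (PT.fst' (α := α) (β := ℕ × ℕ))
    have hk' := hk.comp (PT.fst' (α := α) (β := ℕ × ℕ))
    have hc : PT ∅ fun p : α × ℕ × ℕ => p.2.1 := PT.snd'.fst
    have ht : PT ∅ fun p : α × ℕ × ℕ => p.2.2 := PT.snd'.snd
    have c0 : PT ∅ fun _ : α × ℕ × ℕ => 0 := PT.const 0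
    have c1 : PT ∅ fun _ : α × ℕ × ℕ => 1 := PT.const 1
    have c2 : PT ∅ fun _ : α × ℕ × ℕ => 2 := PT.const 2
    have hkb := hk'.mul h'.b
    have hB := (h'.nEq hK').mul hkb
    have hV := (h'.nKd hK').mul hkb
    have he := hc.div hkb
    have hr := (hc.mod hkb).div h'.b
    have he' := (hc.sub hB).div hk'
    have hr' := (hc.sub hB).mod hk'
    exact PT.ite (hc.lt hB)
      (PT.ite (ht.lt (PT.const 3))
        (((h'.symN hK' he ht (hr.mod h'.h) ((hc.mod hkb).mod h'.b)).add (h'.b.mul hr)).add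
          (hkb.mul (PT.getD (h'.klN hK' he) ht c0)))
        (hV.add ((c0.add (c2.mul hr)).add ((hk'.mul c2).mul he))))
      (hV.add (((PT.ite (ht.eqNat c0) c0 c1).add
        (c2.mul (PT.ite (ht.eqNat c2) (hr'.add c1) hr'))).add ((hk'.mul c2).mul he')))
  · have h' := h.comp (PT.fst' (α := α) (β := ℕ))
    have hK' := hK.comp (PT.fst' (α := α) (β := ℕ))
    have hk' := hk.comp (PT.fst' (α := α) (β := ℕ))
    have hc : PT ∅ fun p : α × ℕ => p.2 := PT.snd'
    have hB := (h'.nEq hK').mul (hk'.mul h'.b)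
    exact (hc.lt hB).not.and (((((hc.sub hB).mod hk').add (PT.const 1)).eqNat hk').and
      (((hc.sub hB).div hk').eqNat ((h'.nLk hK').add ((h'.nS.mul (PT.const 3)).add (PT.const 3)))))

end PTS

theorem pt_st {D : α → HData} (hD : PTD ∅ D) {ρ j : α → ℕ} (hρ : PT ∅ ρ) (hj : PT ∅ j) :
    PT ∅ fun a => st (D a) (ρ a) (j a) := hD.nC.add (hj.add ((hD.h.add (PT.const 1)).mul hρ))

theorem pts_toS {D : α → HData} (hD : PTD ∅ D) (hb : PBd fun a => (D a).b)
    (hh : PBd fun a => (D a).h) : PTS fun a => toS (D a) := by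
  refine ⟨hD.b, hD.h, hD.nC.add ((hD.h.add (PT.const 1)).mul hD.nR),
    PT.flatMap (PT.range hD.nR (PBd.length hD.rules)) ?_⟩
  have f1 : PT ∅ fun p : α × ℕ => p.1 := PT.fst'
  have D1 := hD.comp f1
  have ρ1 : PT ∅ fun p : α × ℕ => p.2 := PT.snd'
  have c0 : PT ∅ fun _ : α × ℕ => 0 := PT.const 0
  have r1 := D1.rule ρ1
  have tl := D1.h.pair (c0.pair c0)
  refine PT.cons ((PT.getD r1.fst c0 c0).pair ((PT.getD r1.fst ((PT.length r1.fst).sub (PT.const 1))
    c0).pair ((pt_st D1 ρ1 c0).pair tl))) (PT.cons ((pt_st D1 ρ1 D1.h).pair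
      ((pt_st D1 ρ1 D1.h).pair (r1.snd.fst.pair tl)))
      (PT.flatMap (PT.range D1.h (hh.comp f1)) ?_))
  have f2 : PT ∅ fun p : (α × ℕ) × ℕ => p.1.1 := PT.fst'.fst
  have f3 : PT ∅ fun p : ((α × ℕ) × ℕ) × ℕ => p.1.1.1 := PT.fst'.fst.fst
  have D3 := hD.comp f3
  have ρ3 : PT ∅ fun p : ((α × ℕ) × ℕ) × ℕ => p.1.1.2 := PT.fst'.fst.snd
  have j3 : PT ∅ fun p : ((α × ℕ) × ℕ) × ℕ => p.1.2 := PT.fst'.snd
  have a3 : PT ∅ fun p : ((α × ℕ) × ℕ) × ℕ => p.2 := PT.snd'
  have o3 := D3.op ρ3 j3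
  exact PT.map (PT.filter (PT.range (hD.b.comp f2) (hb.comp f2)) (PT.inDom o3 a3))
    ((pt_st D3 ρ3 j3).pair ((pt_st D3 ρ3 j3).pair ((pt_st D3 ρ3 (j3.add (PT.const 1))).pair
      (j3.pair (a3.pair (PT.dopVal o3 D3.b a3))))))

/-- the system of the flat machine `t` with the input `u` -/
def msys (t : FTable) (u : Word) (k : ℕ) : NSys := hsys (Gen.data t u (u.length + 2) (k / 4)) k

/-- the two adjacency matrices -/
def red (t : FTable) (u : Word) (k n : ℕ) : Word :=
  (msys t u k).bitsN false n ++ (msys t u k).bitsN true n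

theorem pt_red {t : α → FTable} {u : α → Raw} {k n : α → ℕ} (ht : PT ∅ t) (hu : PT ∅ u)
    (hk : PT ∅ k) (hkb : PBd k) (hn : PT ∅ n) (hnb : PBd n) :
    PT ∅ fun a => Raw.mk (red (t a) (u a).w (k a) (n a)) := by
  have hbb : PBd fun a => (u a).w.length + 2 := hu.pbd.add (PBd.const 2)
  have hgb : PBd fun a => k a / 4 := hkb.mono fun z => Nat.div_le_self _ _
  have hD := GenPT.data ht (PT.listOfRaw hu) ((PT.rawLength hu).add (PT.const 2)) hbb
    (hk.div (PT.const 4)) hgb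
  have hN := (pts_toS hD hbb (hgb.add hgb)).nsys (hk.add (PT.const 1)) hk
  exact PT.rawOfList (PT.append (hN.bitsN false hn hnb) (hN.bitsN true hn hnb))

theorem nS_le (D : HData) : (toS D).nS ≤ D.nR * (2 + D.h * D.b) := by
  have h1 : ∀ ρ, (seqRules D ρ).length ≤ 2 + D.h * D.b := fun ρ => by
    rw [seqRules, List.length_cons, List.length_cons, List.length_flatMap]
    have h2 := List.sum_le_card_nsmul ((List.range D.h).map fun j => (((List.range D.b).filter
      fun a => decide (((D.rule ρ).op j).inDom a)).map fun a => ((st D ρ j, st D ρ j,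
        st D ρ (j + 1), j, a, ((D.rule ρ).op j).val D.b a) : SRule)).length) D.b (by
      intro x hx
      obtain ⟨j, -, rfl⟩ := List.mem_map.1 hx
      rw [List.length_map]
      exact (List.length_filter_le _ _).trans List.length_range.le)
    rw [List.length_map, List.length_range, smul_eq_mul] at h2
    omega
  have h3 := List.sum_le_card_nsmul ((List.range D.nR).map fun ρ => (seqRules D ρ).length) _ (by
    intro x hx
    obtain ⟨ρ, -, rfl⟩ := List.mem_map.1 hx
    exact h1 ρ)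
  rw [List.length_map, List.length_range, smul_eq_mul] at h3
  exact List.length_flatMap.le.trans h3

theorem size_aux {ι : Type} {b k : ι → ℕ} {D : ι → HData} (hk : ∀ i, k i + 2 ≤ b i)
    (hDb : PolyB b (fun i => (D i).b) 1) (hh : PolyB b (fun i => (D i).h + 1) 1)
    (hR : PolyB b (fun i => (D i).nR) 3) (hC : PolyB b (fun i => (D i).nC) 2) :
    PolyB b (fun i => (hsys (D i) (k i)).nTot) 24 := by
  have hb : ∀ i, 1 ≤ b i := fun i => by have := hk i; omega
  have hK : PolyB b (fun i => k i + 1 + 1) 1 := PolyB.self.of_le hk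
  have hk' : PolyB b k 1 := PolyB.self.of_le fun i => by have := hk i; omega
  have c : ∀ m, PolyB b (fun _ => m) 0 := PolyB.const
  have hT : PolyB b (fun i => (toS (D i)).nT) 4 :=
    (hC.mono hb (by norm_num)).add (hh.mul hR)
  have hS : PolyB b (fun i => (toS (D i)).nS) 5 :=
    (hR.mul (((c 2).mono hb (by norm_num : 0 ≤ 1 + 1)).add
      ((hh.of_le fun i => Nat.le_succ _).mul hDb))).of_le fun i => nS_le _
  have hKd : PolyB b (fun i => (toS (D i)).nKd (k i + 1)) 6 :=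
    ((hT.mono hb (by norm_num : 4 ≤ 5 + (0 + 1))).add (hS.mul ((c 2).mul hK))).mul (c 3)
  have hLk : PolyB b (fun i => (toS (D i)).nLk (k i + 1)) 6 := hS.mul ((c 2).mul (hK.mul (c 3)))
  have hEq : PolyB b (fun i => (toS (D i)).nEq (k i + 1)) 6 :=
    hLk.add' hb ((hS.mul (c 3)).add' hb (c 4) (by norm_num)) (by norm_num)
  have hV : PolyB b (fun i => (hsys (D i) (k i)).nV) 8 :=
    (hKd.mul (hk'.mul hDb)).add' hb (hEq.mul (hk'.mul (c 2))) (by norm_num)
  have hE : PolyB b (fun i => (hsys (D i) (k i)).nE) 8 :=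
    (hEq.mul (hk'.mul hDb)).add' hb (hEq.mul hk') (by norm_num)
  have hU : PolyB b (fun i => (hsys (D i) (k i)).nU) 8 := (hV.mul (c 2)).add (hE.mul (c 16))
  have hL : PolyB b (fun i => (hsys (D i) (k i)).nL) 16 :=
    (hV.add hE).mul (hU.add' hb (c 1) (by norm_num))
  exact hU.mul (hL.add' hb (c 1) (by norm_num))

theorem rules_aux {a b g w r : ℕ} (h2 : g ≤ b) (h3 : w ≤ b) (h4 : 1 ≤ b)
    (h1 : r ≤ w + (4 + 2 * g + b) + a * (3 + 2 * g + b * b * (g + 1)) + b * (b * g)) :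
    r ≤ (9 + 7 * a) * b ^ 3 := by
  have h5 : b ≤ b ^ 3 := Nat.le_self_pow (by norm_num) _
  have h6 : b * (b * g) ≤ b ^ 3 := by
    rw [show b ^ 3 = b * (b * b) by ring]
    exact Nat.mul_le_mul_left _ (Nat.mul_le_mul_left _ h2)
  have h7 : b * b ≤ b ^ 3 := by
    rw [← pow_two]
    exact Nat.pow_le_pow_right h4 (by norm_num)
  have h8 : 3 + 2 * g + b * b * (g + 1) ≤ 7 * b ^ 3 := by
    rw [show b * b * (g + 1) = b * (b * g) + b * b by ring]
    omega
  have h9 := Nat.mul_le_mul_left a h8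
  rw [add_mul, mul_comm 7 a, mul_assoc a]
  omega

/-- The number of vertices is polynomial in the length of the input and the dimension. -/
theorem exists_size (t : FTable) : ∃ C, ∀ (u : Word) (k : ℕ), k ≤ u.length →
    (msys t u k).nTot ≤ C * (u.length + 2) ^ 24 := by
  obtain ⟨C, hC⟩ := size_aux (ι := {x : Word × ℕ // x.2 ≤ x.1.length})
    (b := fun i => i.1.1.length + 2) (k := fun i => i.1.2)
    (D := fun i => Gen.data t i.1.1 (i.1.1.length + 2) (i.1.2 / 4))
    (fun i => Nat.add_le_add_right i.2 2) PolyB.self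
    (PolyB.self.of_le fun i => by
      have := i.2
      show i.1.2 / 4 + i.1.2 / 4 + 1 ≤ _
      omega)
    ⟨9 + 7 * Gen.acts t, fun i => rules_aux (b := i.1.1.length + 2) (by have := i.2; omega)
      (by omega) (by omega) (Gen.length_rules_le t i.1.1 _ (i.1.2 / 4))⟩
    ⟨10, fun i => by
      show 2 + 8 * ((i.1.1.length + 2) * (i.1.1.length + 2)) ≤ 10 * (i.1.1.length + 2) ^ 2
      nlinarith⟩
  exact ⟨C, fun u k h => hC ⟨(u, k), h⟩⟩

/-- **The graphs of a flat machine.** -/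
theorem exists_graphs (t : FTable) : ∃ C, 1 ≤ C ∧ ∀ (u : Word) (k n : ℕ), 4 ≤ k → k ≤ u.length →
    C ≤ u.length → C * (u.length + 2) ^ 24 ≤ n → ∃ G H : SimpleGraph (Fin n),
      inputWord G H = red t u k n ∧
        (WLEquiv k G H ↔ ¬ ∃ m < (u.length + 2) ^ (k / 4), t.AccAt u m) := by
  obtain ⟨C, hC⟩ := exists_size t
  obtain ⟨b₀, hb₀⟩ := t.exists_small
  refine ⟨C + b₀ + 1, by omega, fun u k n h1 h2 h3 h4 => ?_⟩
  obtain ⟨hok, hder⟩ := genSpec t u (u.length + 2) (k / 4) (hb₀ _ (by omega)) (by omega) (by omega)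
    (by omega)
  obtain ⟨G, H, e1, e2⟩ := graphs _ hok (k := k) (n := n)
    (by show 2 * (k / 4 + k / 4) ≤ k; omega)
    ((hC u k h2).trans ((Nat.mul_le_mul_right _ (by omega)).trans h4))
  exact ⟨G, H, e1, by rw [e2, hder]⟩

end Vale.Agent.N310X
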