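import Vale.Agent.N310X.Defs
import Vale.Agent.N310X.Red
import Vale.Agent.P310T.Main
import Vale.Agent.Lib.PolyTime.Official

/-!
# P310: with the dimension in the input the problem is complete for exponential time
-/

namespace Vale.Agent.N310X

open Function Filter Turing Vale.Agent.P310 Vale.Agent.P310Z Vale.Agent.Lib.PolyTime

/-! ### Machines -/

theorem Answers.mono {M : TM2ComputableAux Bool Bool} {w : Word} {P Q : Prop} {T T' : ℕ}
    (h : Answers M w P T) (hP : P ↔ Q) (hT : T ≤ T') : Answers M w Q T' := by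
  obtain ⟨b, hb, ⟨h⟩⟩ := h
  exact ⟨b, hb.trans hP, ⟨⟨h.toEvalsTo, h.steps_le_m.trans hT⟩⟩⟩

theorem Answers.run {M : TM2ComputableAux Bool Bool} {w : Word} {P : Prop} {T : ℕ}
    (h : Answers M w P T) : ∃ s ≤ T, ∃ c : M.tm.Cfg,
      stepsFrom M.tm (initList M.tm (w.map M.inputAlphabet.symm)) s = some c ∧ c.l = none ∧
        ∀ b, (c.stk M.tm.k₁).head? = some (M.outputAlphabet.symm b) ↔ (b = true ↔ P) := by
  obtain ⟨b, hb, ⟨h⟩⟩ := h
  refine ⟨h.steps, h.steps_le_m, haltList M.tm [M.outputAlphabet.symm b], ?_, rfl, fun b' => ?_⟩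
  · rw [stepsFrom_eq]
    exact h.evals_in_steps
  · have e : (haltList M.tm [M.outputAlphabet.symm b]).stk M.tm.k₁ = [M.outputAlphabet.symm b] := by
      simp [haltList]
    rw [e, ← hb, List.head?_cons, Option.some_inj, M.outputAlphabet.symm.injective.eq_iff]
    cases b <;> cases b' <;> simp

open ToTM2 in
/-- A program as a machine with one output bit. -/
theorem exists_aux (p : Prog) : ∃ (M : TM2ComputableAux Bool Bool) (c : ℕ),
    ∀ (x : Word) (t : ℕ) (σ : ℕ → Word), Runs ∅ p (start x []) t σ →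
      Answers M x ((σ 1).head? = some true) (c * (t + x.length + 1)) := by
  classical
  let q : Prog := .seq p (.seq (Prog.clear 0) (.ite 1 (.push 0 false) (.push 0 false) (.push 0 true)))
  obtain ⟨N, hN⟩ := exists_bounded q
  set P : Prog := .seq q (clearAll N) with hP
  have hPb : bounded (N + 1) P := ⟨bounded_mono (Nat.le_succ N) hN, bounded_clearAll N⟩
  set R : Set (List Prog) := insert [] (reach P []) with hR
  have h0 : [] ∈ R := Set.mem_insert _ _
  have : Fintype R := ((reach_finite P []).insert []).fintype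
  let tm : FinTM2 :=
    { K := Fin (N + 1)
      k₀ := 0
      k₁ := 0
      Γ := fun _ => Bool
      Λ := R
      main := lab R h0 [P]
      σ := Option Bool
      initialState := none
      m := fun l => stmt N R h0 l.1 }
  refine ⟨⟨tm, Equiv.refl Bool, Equiv.refl Bool⟩, 40 * N + 40, fun x t σ r => ?_⟩
  set b : Bool := decide ((σ 1).head? = some true) with hb
  have hl : ∀ i, (σ i).length ≤ x.length + t := fun i => by
    have h1 := r.length_le i
    have h2 : (start x [] i).length ≤ x.length := by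
      unfold start
      split_ifs <;> simp
    omega
  have r2 : Runs ∅ (.ite 1 (.push 0 false) (.push 0 false) (.push 0 true)) (update σ 0 []) 2
      (update σ 0 [b]) := by
    have e : update σ 0 [] 1 = σ 1 := update_of_ne (by omega) _ _
    have e2 : ∀ a, Runs ∅ (.push 0 a) (update σ 0 []) 1 (update σ 0 [a]) := fun a =>
      (Runs.push 0 a).congr (by simp)
    rcases h : σ 1 with _ | ⟨_ | _, l⟩
    · exact (Runs.ite_nil (e.trans h) (e2 false)).congr (by simp [hb, h])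
    · exact (Runs.ite_false (by rw [e, h]; rfl) (e2 false)).congr (by simp [hb, h])
    · exact (Runs.ite_true (by rw [e, h]; rfl) (e2 true)).congr (by simp [hb, h])
  obtain ⟨t₁, ht₁, e₁⟩ := r.seq ((Runs.clear 0).seq r2)
  obtain ⟨t', s', e', ht', a1, a2, -⟩ := eval_clearAll ∅ N (update σ 0 [b]) (x.length + t + 1)
    fun i => by
      rcases eq_or_ne i 0 with rfl | hi
      · simp
      · rw [update_of_ne hi]
        exact (hl i).trans (Nat.le_succ _)
  obtain ⟨n, v', hn, hsteps⟩ := sim (N := N) (R := R) (h0 := h0) (Eval.seq e₁ e') hPb []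
    (fun y hy => Set.mem_insert_of_mem _ hy) h0 none
  have hlast : Steps N R h0 1 ⟨some (lab R h0 []), v', restr N s'⟩ ⟨none, none, restr N s'⟩ := by
    refine steps_one ?_
    rw [lab_of_mem h0]
    simp [stmt]
  refine ⟨b, decide_eq_true_iff, ⟨⟨⟨1 + n, ?_⟩, ?_⟩⟩⟩
  · have e1 : initList tm (x.map (Equiv.refl Bool).symm) =
        ⟨some (lab R h0 [P]), none, restr N (start x [])⟩ := by
      unfold initList
      congr 1
      funext k
      by_cases hk : k = 0
      · subst hk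
        simp [tm, restr, start]
      · have : (k : ℕ) ≠ 0 := fun e => hk (Fin.ext e)
        simp [tm, restr, start, hk, this]
    have e2 : haltList tm [(Equiv.refl Bool).symm b] = ⟨none, none, restr N s'⟩ := by
      unfold haltList
      congr 1
      funext k
      by_cases hk : k = 0
      · subst hk
        simp [tm, restr, a2]
      · have : (k : ℕ) ≠ 0 := fun e => hk (Fin.ext e)
        simp [tm, restr, hk, a1 k (by omega) (Nat.le_of_lt_succ k.isLt)]
    have := hsteps.trans hlast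
    rw [← e1, ← e2] at this
    exact this
  · have h1 := hl 0
    show 1 + n ≤ _
    nlinarith

theorem q1 : (∃ c : ℝ, 0 < c ∧ ∃ k₀ : ℕ, ∀ k, k₀ ≤ k → ∀ M T, Decides M k T →
      ∀ᶠ n : ℕ in atTop, (n : ℝ) ^ (c * k) ≤ T n) ∧
    (¬ ∃ g : ℕ → ℝ, g =o[atTop] (fun k : ℕ => (k : ℝ)) ∧ ∀ k, 2 ≤ k → ∃ M T, Decides M k T ∧
      (fun n : ℕ => (T n : ℝ)) =O[atTop] fun n : ℕ => (n : ℝ) ^ g k) ∧
    ∃ C : ℕ, ∀ k, 2 ≤ k → ∃ M T, Decides M k T ∧
      (fun n : ℕ => (T n : ℝ)) =O[atTop] fun n : ℕ => (n : ℝ) ^ (C * k) := by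
  have key : ∀ {M k T}, Decides M k T →
      DecidesWL M.tm M.inputAlphabet.symm (M.outputAlphabet.symm true) k T := fun h n G H => by
    obtain ⟨s, hs, c, h1, h2, h3⟩ := (h n G H).run
    exact ⟨s, hs, c, h1, h2, (h3 true).trans (by simp)⟩
  refine ⟨?_, ?_, ?_⟩
  · obtain ⟨c, hc, k₀, h⟩ := strongLowerBound
    exact ⟨c, hc, k₀, fun k hk M T hM => h k hk _ _ _ T (key hM)⟩
  · rintro ⟨g, hg, h⟩
    refine strongLowerBound.noSublinear ⟨g, hg, fun k hk => ?_⟩
    obtain ⟨M, T, h1, h2⟩ := h k hk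
    exact ⟨_, _, _, T, key h1, h2⟩
  · obtain ⟨C, hC⟩ := P310T.exists_prog P310T43.pt_dec
    refine ⟨C + 1, fun k hk => ?_⟩
    obtain ⟨p, D, hp⟩ := hC k hk
    obtain ⟨M, c, hM⟩ := exists_aux p
    refine ⟨M, fun n => c * (D + 2) * (n + 2) ^ ((C + 1) * k), fun n G H => ?_,
      P310T.isBigO_of_le fun n => le_rfl⟩
    obtain ⟨σ, r, hσ⟩ := hp n _ (length_inputWord G H)
    refine (hM _ _ σ r).mono (by rw [hσ, P310T.tup_eq, P310T43.dec_spec]) ?_
    show _ ≤ c * (D + 2) * (n + 2) ^ ((C + 1) * k)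
    rw [length_inputWord, mul_assoc, add_mul D]
    refine Nat.mul_le_mul_left _ ?_
    have h1 : (n + 2) ^ (C * k) ≤ (n + 2) ^ ((C + 1) * k) :=
      Nat.pow_le_pow_right (by omega) (Nat.mul_le_mul_right _ (by omega))
    have h2 : (n + 2) ^ 2 ≤ (n + 2) ^ ((C + 1) * k) :=
      Nat.pow_le_pow_right (by omega) (by nlinarith)
    have h3 := Nat.mul_le_mul_left D h1
    nlinarith

/-! ### Words -/

theorem word_eq (c : Word) {n : ℕ} (G H : SimpleGraph (Fin n)) :
    word c G H = pr c (inputWord G H) := by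
  induction c with
  | nil => rfl
  | cons b c ih => rw [pr, ← ih]; rfl

/-- adjacency, read from a word -/
def adjF (n off : ℕ) (x : Word) (i j : ℕ) : Bool :=
  !decide (i = j) && (x.getD (off + (i * n + j)) false && x.getD (off + (j * n + i)) false)

/-- a graph, read from a word -/
def gr (n off : ℕ) (x : Word) : SimpleGraph (Fin n) where
  Adj i j := adjF n off x i j = true
  symm := ⟨fun i j h => by
    simp only [adjF, Bool.and_eq_true, Bool.not_eq_true', decide_eq_false_iff_not] at h ⊢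
    exact ⟨Ne.symm h.1, h.2.symm⟩⟩
  loopless := ⟨fun i h => by simp [adjF] at h⟩

theorem gr_eq {n off : ℕ} {x : Word} {G : SimpleGraph (Fin n)}
    (h : ∀ i j : Fin n, x.getD (off + (i * n + j)) false = true ↔ G.Adj i j) : gr n off x = G := by
  ext i j
  show adjF n off x i j = true ↔ _
  simp only [adjF, Bool.and_eq_true, Bool.not_eq_true', decide_eq_false_iff_not, h, Fin.val_inj]
  exact ⟨fun h => h.2.1, fun h => ⟨h.ne, h, h.symm⟩⟩

theorem gr_left {n : ℕ} (G H : SimpleGraph (Fin n)) : gr n 0 (inputWord G H) = G :=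
  gr_eq fun i j => by
    classical
    rw [List.getD_eq_getElem?_getD, zero_add, inputWord, adjBits,
      P310T43.getElem?_flat _ _ _ (by simp)]
    simp

theorem gr_right {n : ℕ} (G H : SimpleGraph (Fin n)) : gr n (n * n) (inputWord G H) = H :=
  gr_eq fun i j => by
    classical
    rw [List.getD_eq_getElem?_getD, inputWord,
      List.getElem?_append_right (by rw [P310T43.length_adjBits]; omega), P310T43.length_adjBits,
      Nat.add_sub_cancel_left, ← List.append_nil (adjBits H), adjBits,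
      P310T43.getElem?_flat _ _ _ (by simp)]
    simp

/-- the word of the graphs read from a word -/
noncomputable def canon (x : Word) : Word :=
  inputWord (gr (unum x.length) 0 x) (gr (unum x.length) (unum x.length * unum x.length) x)

theorem canon_inputWord {n : ℕ} (G H : SimpleGraph (Fin n)) :
    canon (inputWord G H) = inputWord G H := by
  have h1 : ∀ m, m = n → inputWord (gr m 0 (inputWord G H)) (gr m (m * m) (inputWord G H)) =
      inputWord G H := by
    rintro _ rfl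
    rw [gr_left, gr_right]
  exact h1 _ (by rw [length_inputWord, unum_eq])

/-- ways to write the dimension -/
structure Code (code : ℕ → Word) : Prop where
  pt : PT ∅ fun u : Un => Raw.mk (code u.v)
  dec : ∃ d : Word → ℕ, (PT ∅ fun c : Raw => d c.w) ∧
    (PT ∅ fun c : Raw => Raw.mk (code (d c.w))) ∧ ∀ k, d (code k) = k

theorem code_unary : Code fun k => List.replicate k true :=
  ⟨⟨_, FP.id, fun _ => rfl⟩, List.length, PT.rawLength PT.id,
    PT.rawOfList (PT.replicate (PT.rawLength PT.id) (PT.id (A := ∅)).pbd (PT.const true)),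
    fun _ => List.length_replicate⟩

theorem code_binary : Code Nat.bits :=
  ⟨PT.rawBits (PT.unVal PT.id), val, PT.rawVal PT.id, PT.rawBits (PT.rawVal PT.id), val_bits⟩

variable {code : ℕ → Word}

theorem mem_wlLang (hc : Code code) {k n : ℕ} (hk : 2 ≤ k) (G H : SimpleGraph (Fin n)) :
    word (code k) G H ∈ wlLang code ↔ WLEquiv k G H := by
  refine ⟨?_, fun h => ⟨k, n, G, H, hk, rfl, h⟩⟩
  rintro ⟨k', n', G', H', -, e, h⟩
  obtain ⟨d, -, -, hd⟩ := hc.dec
  rw [word_eq, word_eq] at e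
  obtain ⟨e1, e2⟩ := pr_inj e
  obtain rfl : k = k' := by rw [← hd k, e1, hd]
  obtain rfl : n = n' := by rw [← unum_eq n, ← length_inputWord G H, e2, length_inputWord, unum_eq]
  obtain rfl : G = G' := by rw [← gr_left G H, e2, gr_left]
  obtain rfl : H = H' := by rw [← gr_right G H, e2, gr_right]
  exact h

/-- For `k ≥ n`, equivalence is isomorphism. -/
theorem wl_large {k n : ℕ} (hk : n ≤ k) (G H : SimpleGraph (Fin n)) :
    WLEquiv k G H ↔ Nonempty (G ≃g H) := by
  refine ⟨fun h => ?_, fun ⟨e⟩ => (WLEquiv.congr_iso e (RelIso.refl _)).2 fun _ => rfl⟩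
  rcases Nat.eq_zero_or_pos n with rfl | hn
  · exact ⟨⟨Equiv.refl _, fun {a} => a.elim0⟩⟩
  obtain ⟨y, -, hy⟩ := Multiset.mem_map.1 (h 0 ▸ Multiset.mem_map_of_mem (wl G k 0)
    (Finset.mem_univ fun i : Fin k => (⟨i % n, Nat.mod_lt _ hn⟩ : Fin n)))
  have h1 : ∀ a b : Fin n, (y (a.castLE hk) = y (b.castLE hk) ↔ a = b) ∧
      (H.Adj (y (a.castLE hk)) (y (b.castLE hk)) ↔ G.Adj a b) := fun a b => by
    have h2 := congrFun (congrFun hy (a.castLE hk)) (b.castLE hk)
    simp only [wl, Fin.val_castLE, Nat.mod_eq_of_lt a.2, Nat.mod_eq_of_lt b.2, Fin.eta,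
      Prod.mk.injEq, eq_iff_iff] at h2
    exact h2
  exact ⟨⟨Equiv.ofBijective (fun a => y (a.castLE hk))
    (Finite.injective_iff_bijective.1 fun a b e => (h1 a b).1.1 e), (h1 _ _).2⟩⟩

theorem pt_pr {α : Type} [Enc α] {f g : α → Raw} (hf : PT ∅ f) (hg : PT ∅ g) :
    PT ∅ fun a => Raw.mk (pr (f a).w (g a).w) := by
  obtain ⟨G, hG, hG'⟩ := hf.pair hg
  exact ⟨G, hG, fun z => hG' z⟩

theorem pt_eqW {α : Type} [Enc α] {f g : α → Raw} (hf : PT ∅ f) (hg : PT ∅ g) :
    PT ∅ fun a => decide ((f a).w = (g a).w) := by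
  have h : ∀ {f : α → Raw}, PT ∅ f → PT ∅ fun a => (f a).w.map Bool.toNat := fun hf =>
    PT.map (f := fun _ b => Bool.toNat b) (PT.listOfRaw hf)
      (PT.cond PT.snd' (PT.const 1) (PT.const 0))
  exact (P310T43.pt_eqL (h hf) (h hg)).congr fun a => decide_eq_decide.2
    (List.map_injective_iff.2 fun a b e => by revert a b; decide).eq_iff

theorem pt_adjBits {α : Type} [Enc α] {n off : α → ℕ} {x : α → Raw} (hn : PT ∅ n) (hnb : PBd n)
    (ho : PT ∅ off) (hx : PT ∅ x) : PT ∅ fun a => adjBits (gr (n a) (off a) (x a).w) := by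
  have hR := PT.range hn hnb
  have f : PT ∅ fun p : (α × ℕ) × ℕ => p.1.1 := PT.fst'.fst
  have i : PT ∅ fun p : (α × ℕ) × ℕ => p.1.2 := PT.fst'.snd
  have j : PT ∅ fun p : (α × ℕ) × ℕ => p.2 := PT.snd'
  refine (PT.flatMap hR (PT.map (f := fun p : α × ℕ => adjF (n p.1) (off p.1) (x p.1).w p.2)
    (hR.comp PT.fst') ?_)).congr fun a => (adjBits_eq _ _ fun _ _ => Iff.rfl).symm
  exact (i.eqNat j).not.and
    ((PT.rawGetD (hx.comp f) ((ho.comp f).add ((i.mul (hn.comp f)).add j))).and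
      (PT.rawGetD (hx.comp f) ((ho.comp f).add ((j.mul (hn.comp f)).add i))))

/-- Every word is transformed into a small instance with the same answer. -/
theorem exists_fix (hc : Code code) : ∃ Y : Raw → Un × Raw, PT ∅ Y ∧ ∀ w : Word,
    ∃ (k n : ℕ) (G H : SimpleGraph (Fin n)), Y ⟨w⟩ = (⟨k⟩, ⟨inputWord G H⟩) ∧ n ≤ w.length + 2 ∧
      k ≤ w.length + 2 ∧ (WLEquiv k G H ↔ w ∈ wlLang code) := by
  obtain ⟨d, d1, d2, hd⟩ := hc.dec
  have hf : PT ∅ fun w : Raw => Raw.mk (fstW w.w) := ⟨_, FP.fst, fun _ => rfl⟩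
  have hs : PT ∅ fun w : Raw => Raw.mk (sndW w.w) := ⟨_, FP.snd, fun _ => rfl⟩
  have hN : PT ∅ fun w : Raw => unum (sndW w.w).length := P310T43.pt_unum hs
  have hNb : PBd fun w : Raw => unum (sndW w.w).length := hs.pbd.mono fun w => unum_le _
  have hX : PT ∅ fun w : Raw => Raw.mk (canon (sndW w.w)) := PT.rawOfList
    (PT.append (pt_adjBits hN hNb (PT.const 0) hs) (pt_adjBits hN hNb (hN.mul hN) hs))
  refine ⟨fun w => if 2 ≤ d (fstW w.w) ∧ pr (code (d (fstW w.w))) (canon (sndW w.w)) = w.w then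
    (⟨min (d (fstW w.w)) (unum (sndW w.w).length + 2)⟩, ⟨canon (sndW w.w)⟩)
    else (⟨2⟩, ⟨inputWord (⊥ : SimpleGraph (Fin 2)) ⊤⟩), PT.ite (PT.decide_and
      ((PT.const 2).le (d1.comp hf)) (pt_eqW (pt_pr (d2.comp hf) hX) PT.id))
    ((PT.mkUn ((d1.comp hf).min (hN.add (PT.const 2)))
      ((hNb.add (PBd.const 2)).mono fun w => min_le_right _ _)).pair hX) (PT.const _), fun w => ?_⟩
  by_cases h : 2 ≤ d (fstW w) ∧ pr (code (d (fstW w))) (canon (sndW w)) = w
  · have h1 : unum (sndW w).length ≤ w.length := by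
      have h2 := congrArg sndW h.2
      have h3 := congrArg List.length h.2
      rw [sndW_pr] at h2
      rw [length_pr, h2] at h3
      exact (unum_le _).trans (by omega)
    refine ⟨min (d (fstW w)) (unum (sndW w).length + 2), unum (sndW w).length, _, _, if_pos h,
      by omega, by omega, ?_⟩
    conv_rhs => rw [← h.2, canon, ← word_eq, mem_wlLang ⟨hc.pt, d, d1, d2, hd⟩ h.1]
    rcases le_total (d (fstW w)) (unum (sndW w).length + 2) with h2 | h2
    · rw [min_eq_left h2]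
    · rw [min_eq_right h2]
      exact (wl_large (Nat.le_add_right _ 2) _ _).trans
        (wl_large ((Nat.le_add_right _ 2).trans h2) _ _).symm
  · refine ⟨2, 2, ⊥, ⊤, if_neg h, by omega, by omega, iff_of_false ?_ ?_⟩
    · rw [wl_large le_rfl]
      rintro ⟨e⟩
      exact (e.map_rel_iff (a := 0) (b := 1)).1 (e.injective.ne (by decide))
    · rintro ⟨k, n, G, H, hk, rfl, -⟩
      rw [word_eq, fstW_pr, sndW_pr, hd, canon_inputWord] at h
      exact h ⟨hk, rfl⟩

/-! ### The upper bound -/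

open P310T in
theorem exists_uni {Y : Raw → Un × Raw} (hY : PT ∅ Y) : ∃ (U : Prog) (c : ℕ),
    ∀ (w : Word) (k n : ℕ) (G H : SimpleGraph (Fin n)), Y ⟨w⟩ = (⟨k⟩, ⟨inputWord G H⟩) →
      ∃ σ, Runs ∅ U (start w []) ((w.length + (8 * k + 9) * (n + 2) ^ (k + 2) + 2) ^ c) σ ∧
        ((σ 1).head? = some true ↔ WLEquiv k G H) := by
  obtain ⟨I, hI, eI⟩ := pt_linit.comp hY
  obtain ⟨S, hS, eS⟩ := pt_lstep
  obtain ⟨F, hF, eF⟩ := pt_lflag
  obtain ⟨O, hO, eO⟩ : PT ∅ fun u : LSt => P310T43.dec u.1 u.2.2 :=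
    P310T43.pt_dec.comp (PT.fst'.pair PT.snd'.snd)
  obtain ⟨U, T₀, ⟨c, hc⟩, hU⟩ := exists_while hI hS hF hO
  refine ⟨U, c, fun w k n G H hw => ?_⟩
  have hx := length_inputWord G H
  set x := inputWord G H with hxd
  set z := (n + 2) ^ (k + 2) with hz
  have hz1 : (n + 2) ^ k * (n + 2) ≤ z := by
    rw [hz, ← pow_succ]
    exact Nat.pow_le_pow_right (by omega) (by omega)
  have hz2 : (n + 2) ^ 2 ≤ z := Nat.pow_le_pow_right (by omega) (by omega)
  have hz3 : n * n + 1 ≤ z := le_trans (by nlinarith) hz2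
  have hkz : k ≤ k * z := Nat.le_mul_of_pos_right _ (by omega)
  have eit : ∀ j, S^[j] (I w) = enc (lstep^[j] (linit (⟨k⟩, ⟨x⟩))) := fun j => by
    induction j with
    | zero => exact (eI ⟨w⟩).trans (congrArg (fun y => enc (linit y)) hw)
    | succ j ih => rw [iterate_succ_apply', iterate_succ_apply', ih, eS]
  obtain ⟨σ, r, hσ⟩ := hU w k (w.length + (8 * k + 9) * z) (by omega)
    (by rw [add_mul, mul_assoc]; omega)
    (fun j hj => by
      rw [eit, eF, lstep_iter hx, lflag, if_pos (by simp only; omega)]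
      exact List.cons_ne_nil _ _)
    (by rw [eit, eF, lstep_iter hx, lflag, if_neg (by simp)]; rfl)
    (fun j hj => by
      rw [eit, lstep_iter hx]
      show esize _ ≤ _
      have t1 := esize_list_le (esize_mem_tup n j)
      rw [length_tup] at t1
      have t2 : n ^ j ≤ (n + 2) ^ k :=
        (Nat.pow_le_pow_left (by omega) j).trans (Nat.pow_le_pow_right (by omega) hj)
      have t3 : 2 * (j * (2 * n + 1)) + 1 ≤ (n + 2) * (4 * k + 1) := by
        have := Nat.mul_le_mul_right (2 * n + 1) hj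
        nlinarith
      have t4 : esize (tup n j) ≤ z * (4 * k + 1) :=
        t1.trans ((Nat.mul_le_mul t2 t3).trans
          (by rw [← mul_assoc]; exact Nat.mul_le_mul_right _ hz1))
      have t5 := esize_nat_le_self (k - j)
      rw [esize_pair, esize_pair, esize_raw]
      simp only
      have t6 : z * (4 * k + 1) = 4 * (k * z) + z := by ring
      have t7 : (8 * k + 9) * z = 8 * (k * z) + 9 * z := by ring
      omega)
  refine ⟨σ, r.mono (hc _), ?_⟩
  rw [hσ, eit, eO, lstep_iter hx, ← P310T43.dec_spec, ← tup_eq]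
  simp [enc_bool, hxd]

theorem mem_exp (hc : Code code) : wlLang code ∈ EXPTIME := by
  obtain ⟨Y, hY, hY'⟩ := exists_fix hc
  obtain ⟨U, c, hU⟩ := exists_uni hY
  obtain ⟨M, a, hM⟩ := exists_aux U
  refine ⟨M, Polynomial.C a + (((Polynomial.X + 4) * (Polynomial.X + 4) + (Polynomial.X + 4) + 4) *
    Polynomial.C c + (Polynomial.X + 4) + 1), fun w => ?_⟩
  obtain ⟨k, n, G, H, h1, h2, h3, h4⟩ := hY' w
  obtain ⟨σ, r, hσ⟩ := hU w k n G H h1
  refine (hM _ _ σ r).mono (hσ.trans h4) ?_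
  simp only [Polynomial.eval_add, Polynomial.eval_mul, Polynomial.eval_C, Polynomial.eval_X,
    Polynomial.eval_ofNat, Polynomial.eval_one]
  obtain ⟨m, hm⟩ : ∃ m, m = w.length + 4 := ⟨_, rfl⟩
  rw [← hm, pow_add 2 a]
  have hm2 : m ≤ 2 ^ m := Nat.lt_two_pow_self.le
  have h5 : (n + 2) ^ (k + 2) ≤ 2 ^ (m * m) := by
    rw [pow_mul]
    exact (Nat.pow_le_pow_left (by omega) _).trans
      (Nat.pow_le_pow_right Nat.one_le_two_pow (by omega))
  have h6 : w.length + (8 * k + 9) * (n + 2) ^ (k + 2) + 2 ≤ 2 ^ (m * m + m + 4) := by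
    have h7 : 1 ≤ 2 ^ (m * m) := Nat.one_le_two_pow
    have h8 := Nat.mul_le_mul (show 8 * k + 9 ≤ 8 * 2 ^ m by omega) h5
    rw [pow_add 2, pow_add 2]
    nlinarith
  have h7 := Nat.pow_le_pow_left h6 c
  rw [← pow_mul] at h7
  refine Nat.mul_le_mul Nat.lt_two_pow_self.le ?_
  have h8 : 1 ≤ 2 ^ ((m * m + m + 4) * c) := Nat.one_le_two_pow
  have h9 := Nat.mul_le_mul_right (2 ^ m) h8
  have h10 := Nat.mul_le_mul_left (2 ^ ((m * m + m + 4) * c)) (Nat.one_le_two_pow (n := m))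
  rw [pow_succ 2, pow_add 2]
  omega

/-! ### The lower bounds -/

/-- A flat machine which applies `R` and then runs `M`; it accepts iff the output is `b`. -/
theorem exists_flat {R : Word → Word} (hR : FP ∅ R) : ∃ c, ∀ (M : TM2ComputableAux Bool Bool)
    (b : Bool), ∃ (t : FTable) (K : ℕ), ∀ (u : Word) (P : Prop) (T : ℕ),
      Answers M (R (pr u [])) P T → ((∃ m, t.AccAt u m) ↔ (b = true ↔ P)) ∧
        ((b = true ↔ P) → ∃ m ≤ K * ((2 * u.length + 3) ^ c + T + 1), t.AccAt u m) := by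
  obtain ⟨p, w, c, hw, h⟩ := hR
  have h2 : Clean ∅ p w R (pb (c + 1)) := fun s hs => by
    obtain ⟨t, ht, h1⟩ := h s hs
    exact ⟨t, ht.trans (Nat.pow_le_pow_right (by omega) (Nat.le_succ c)), h1⟩
  refine ⟨c + 1, fun M b => ?_⟩
  obtain ⟨t, K, ht⟩ := simSpec (Nat.le_add_left 1 c) ⟨p, w, hw, h2⟩ M.tm M.inputAlphabet.symm
    (M.outputAlphabet.symm b) []
  refine ⟨t, K, fun u P T hA => ?_⟩
  obtain ⟨s, hs, cfg, e1, e2, e3⟩ := hA.run
  obtain ⟨h5, h6⟩ := ht u s cfg e1 e2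
  rw [e3] at h5 h6
  refine ⟨h5, fun h => ?_⟩
  obtain ⟨m, hm, h7⟩ := h6 h
  exact ⟨m, hm.trans (Nat.mul_le_mul_left _ (by simpa using hs)), h7⟩

theorem hard (hc : Code code) {L : Set Word} (hL : L ∈ EXPTIME) : Reduces L (wlLang code) := by
  obtain ⟨M, p, hM⟩ := hL
  obtain ⟨c, hc'⟩ := exists_flat (R := fun z => sndW (fstW z)) (FP.snd.comp FP.fst)
  obtain ⟨t, K, ht⟩ := hc' M false
  obtain ⟨C, hC, hG⟩ := exists_graphs t
  obtain ⟨e, he⟩ := PB.of_polynomial p
  let k : Word → ℕ := fun x => 4 * ((x.length + 2) ^ e + (c + 1))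
  let u : Word → Word := fun x => pr (List.replicate (C + K * (2 ^ c + 2) + k x) false) x
  have hl : PBd fun x : Raw => x.w.length := (PT.id (A := ∅)).pbd
  have hk : PT ∅ fun x : Raw => k x.w := (PT.const 4).mul
    ((((PT.rawLength PT.id).add (PT.const 2)).powConst e).add (PT.const _))
  have hkb : PBd fun x : Raw => k x.w :=
    (PBd.const 4).mul (((hl.add (PBd.const 2)).pow e).add (PBd.const _))
  have hu : PT ∅ fun x : Raw => Raw.mk (u x.w) := pt_pr (PT.rawOfList
    (PT.replicate ((PT.const _).add hk) ((PBd.const _).add hkb) (PT.const false))) PT.id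
  obtain ⟨g, hg, hg'⟩ := pt_pr (hc.pt.comp (PT.mkUn hk hkb)) (pt_red (PT.const t) hu hk hkb
    ((PT.const C).mul (((PT.rawLength hu).add (PT.const 2)).powConst 24))
    ((PBd.const C).mul ((hu.pbd.add (PBd.const 2)).pow 24)))
  refine ⟨g, tm2_of_polyTimeFun id id g g (polyTimeFun_iff.2 hg) fun _ => rfl, fun x => ?_⟩
  have h1 : C + K * (2 ^ c + 2) + k x ≤ (u x).length := by
    rw [length_pr, List.length_replicate]
    omega
  have h2 : k x / 4 = (x.length + 2) ^ e + (c + 1) := Nat.mul_div_cancel_left _ (by norm_num)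
  obtain ⟨G, H, e1, e2⟩ := hG (u x) (k x) _ (by omega) (by omega) (by omega) le_rfl
  have e3 : g x = word (code (k x)) G H := by
    rw [word_eq, e1]
    exact hg' ⟨x⟩
  obtain ⟨h3, h4⟩ := ht (u x) (x ∈ L) _ (by simpa [u] using hM x)
  rw [e3, mem_wlLang hc (by omega), e2]
  refine ⟨fun hx ⟨m, _, hm⟩ => by simpa [hx] using h3.1 ⟨m, hm⟩, fun h => by_contra fun hx => h ?_⟩
  obtain ⟨m, hm, hacc⟩ := h4 (by simpa using hx)
  refine ⟨m, hm.trans_lt ?_, hacc⟩
  obtain ⟨b, hb⟩ : ∃ b, b = (u x).length + 2 := ⟨_, rfl⟩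
  rw [h2, ← hb, ← add_assoc, pow_succ]
  have h5 : (2 * (u x).length + 3) ^ c ≤ 2 ^ c * b ^ ((x.length + 2) ^ e + c) := by
    refine le_trans (Nat.pow_le_pow_left (by omega : _ ≤ 2 * b) c) ?_
    rw [mul_pow]
    exact Nat.mul_le_mul_left _ (Nat.pow_le_pow_right (by omega) (by omega))
  have h6 : 2 ^ p.eval x.length ≤ b ^ ((x.length + 2) ^ e + c) :=
    (Nat.pow_le_pow_right (by omega) ((he _).trans (Nat.le_add_right _ c))).trans
      (Nat.pow_le_pow_left (by omega) _)
  have h7 : 1 ≤ b ^ ((x.length + 2) ^ e + c) := Nat.one_le_pow _ _ (by omega)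
  calc K * ((2 * (u x).length + 3) ^ c + 2 ^ p.eval x.length + 1)
      ≤ K * ((2 ^ c + 2) * b ^ ((x.length + 2) ^ e + c)) :=
        Nat.mul_le_mul_left _ (by rw [add_mul]; omega)
    _ = b ^ ((x.length + 2) ^ e + c) * (K * (2 ^ c + 2)) := by ring
    _ < _ := Nat.mul_lt_mul_of_pos_left (by omega) (by omega)

theorem small_dim {k n b : ℕ} (hk : 2 ≤ k) (h : (k : ℝ) ≤ (n : ℝ) ^ (1 / 200 : ℝ))
    (hn : n ≤ b ^ 25) : 8 * k ≤ b := by
  have h1 : k ^ 200 ≤ n := by
    have h2 := pow_le_pow_left₀ (Nat.cast_nonneg k) h 200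
    rw [← Real.rpow_natCast ((n : ℝ) ^ _), ← Real.rpow_mul (Nat.cast_nonneg n)] at h2
    norm_num at h2
    exact_mod_cast h2
  have h3 : k ^ 8 ≤ b := (Nat.pow_le_pow_iff_left (by norm_num : 25 ≠ 0)).1
    (by rw [← pow_mul]; exact h1.trans hn)
  have h4 := Nat.mul_le_mul_right k (Nat.pow_le_pow_left hk 7)
  rw [← pow_succ] at h4
  exact le_trans (by omega) (h4.trans h3)

theorem size_half {a b₁ b n : ℕ} (h : ∀ b ≥ b₁, ∀ x < b ^ 52, a + 2 * Nat.size x ≤ b)
    (hb : 2 * b₁ + 6 ≤ b) (hn : n ≤ b ^ (24 + 1)) : a + 2 * Nat.size n ≤ b / 2 := by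
  refine h (b / 2) (by omega) n (hn.trans_lt ((Nat.pow_lt_pow_right (by omega)
    (by norm_num : 24 + 1 < 26)).trans_le ?_))
  rw [show 52 = 2 * 26 from rfl, pow_mul]
  refine Nat.pow_le_pow_left ?_ _
  have h1 : 3 ≤ b / 2 := by omega
  have h2 : b ≤ 2 * (b / 2) + 1 := by omega
  nlinarith

theorem uniform (hc : Code code) : ∃ c : ℝ, 0 < c ∧ ∃ k₀ : ℕ, ∀ (M : TM2ComputableAux Bool Bool)
    (T : ℕ → ℕ → ℕ), (∀ k, 2 ≤ k → ∀ (n : ℕ) (G H : SimpleGraph (Fin n)),
      Answers M (word (code k) G H) (WLEquiv k G H) (T k n)) →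
    ∀ᶠ n : ℕ in atTop, ∀ k : ℕ, k₀ ≤ k → (k : ℝ) ≤ (n : ℝ) ^ c → (n : ℝ) ^ (c * k) ≤ T k n := by
  have hu : PT ∅ fun z : (FTable × ℕ × Un × Raw) × Unit => Raw.mk (enc z.1) :=
    ⟨_, FP.fst, fun _ => fstW_pr _ _⟩
  have hk : PT ∅ fun z : (FTable × ℕ × Un × Raw) × Unit => z.1.2.2.1 := PT.fst'.snd.snd.fst
  obtain ⟨R, hR, eR⟩ := pt_pr (hc.pt.comp hk) (pt_red PT.fst'.fst hu (PT.unVal hk) (PBd.unVal hk)
    (PT.min PT.fst'.snd.fst (((PT.rawLength hu).add (PT.const 2)).powConst 25))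
    (((hu.pbd.add (PBd.const 2)).pow 25).mono fun _ => min_le_right _ _))
  obtain ⟨c, hc'⟩ := exists_flat hR
  refine ⟨1 / 200, by norm_num, 4 * (c + 1) + 16, fun M T hM => ?_⟩
  obtain ⟨t, K, ht⟩ := hc' M true
  obtain ⟨C, hC, hG⟩ := exists_graphs t
  obtain ⟨b₁, hb₁⟩ := eventually_atTop.1 (eventually_size_le 52 (8 + 2 * (enc t : Word).length))
  filter_upwards [eventually_between (fun b => C * b ^ 24)
    (fun b => (Nat.le_self_pow (by norm_num) b).trans (Nat.le_mul_of_pos_left _ hC))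
    (2 * b₁ + (C * 2 ^ 24 + 1) + (K * (3 ^ c + 1) + 4) + C + 8)] with n ⟨b, hb, hfb, hfb'⟩ k hk hkn
  have hn1 : n ≤ b ^ (24 + 1) := poly_le (by clear hfb hfb'; omega) hfb'.le
  have hkb := small_dim (by clear hfb hfb' hn1; omega) hkn hn1
  have hsz := size_half hb₁ (by clear hfb hfb' hn1; omega) hn1
  rw [← show (enc n : Word).length = Nat.size n from esize_nat n] at hsz
  clear hfb' hb₁ hkn
  obtain ⟨B, hB⟩ : ∃ B, B = b ^ (24 + 1) := ⟨_, rfl⟩
  obtain ⟨B', hB'⟩ : ∃ B', B' = b ^ 24 := ⟨_, rfl⟩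
  rw [← hB] at hn1
  rw [← hB'] at hfb
  set z : FTable × ℕ × Un × Raw := (t, n, ⟨k⟩, ⟨List.replicate (b - (5 + 2 * (enc t : Word).length +
    2 * (enc n : Word).length + 2 * k)) false⟩) with hz
  have hul : (enc z).length + 2 = b := by
    rw [hz, enc_pair, enc_pair, enc_pair, length_pr, length_pr, length_pr, enc_un, enc_raw]
    simp only [List.length_replicate]
    omega
  obtain ⟨G, H, e1, e2⟩ := hG (enc z) k n (by omega) (by omega) (by omega) (by rwa [hul, ← hB'])
  have e3 : R (pr (enc z) []) = word (code k) G H := by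
    refine (eR (z, ())).trans ?_
    rw [word_eq, e1]
    show pr (code k) (red t (enc z) k (min n (((enc z).length + 2) ^ 25))) = _
    rw [hul, min_eq_left (hB ▸ hn1)]
  obtain ⟨h1, h2⟩ := ht (enc z) _ _ (by rw [e3]; exact hM k (by omega) n G H)
  rw [hul] at e2
  have h3 : b ^ (k / 4) ≤ K * ((2 * b + 3) ^ c + T k n + 1) := by
    by_contra hlt
    by_cases hE : WLEquiv k G H
    · obtain ⟨m, hm, hacc⟩ := h2 (by simpa using hE)
      refine e2.1 hE ⟨m, lt_of_le_of_lt (hm.trans (Nat.mul_le_mul_left _ ?_)) (not_le.1 hlt), hacc⟩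
      have := Nat.pow_le_pow_left (by omega : 2 * (enc z).length + 3 ≤ 2 * b + 3) c
      omega
    · obtain ⟨m, -, hm⟩ := not_not.1 (mt e2.2 hE)
      exact hE (by simpa using h1.1 ⟨m, hm⟩)
  have h4 := rpow_le (E := 24) (k := k) (by omega) (by omega) (hB ▸ hn1)
  norm_num at h4 ⊢
  exact h4.trans (by exact_mod_cast le_of_time (by omega) (by omega) h3)

end Vale.Agent.N310X
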