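import Vale.Agent.N310X.Simple
import Vale.Agent.P310.HData
import Vale.Agent.P310.H593.Num2
import Vale.Agent.P310.H853.Core

/-!
# P310: from Horn data to simple Horn data (one digit after the other)
-/

namespace Vale.Agent.N310X

open Vale.Agent.P310

variable (D : HData)

/-- the type which says that the digits below `j` of the rule `ρ` have been handled -/
def st (ρ j : ℕ) : ℕ := D.nC + (j + (D.h + 1) * ρ)

/-- the simple rules of the rule `ρ` -/
def seqRules (ρ : ℕ) : List SRule :=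
  ((D.rule ρ).1.getD 0 0, (D.rule ρ).1.getD ((D.rule ρ).1.length - 1) 0, st D ρ 0, D.h, 0, 0) ::
    (st D ρ D.h, st D ρ D.h, (D.rule ρ).2.1, D.h, 0, 0) ::
      (List.range D.h).flatMap fun j =>
        ((List.range D.b).filter fun a => decide (((D.rule ρ).op j).inDom a)).map fun a =>
          (st D ρ j, st D ρ j, st D ρ (j + 1), j, a, ((D.rule ρ).op j).val D.b a)

/-- the simple Horn data of Horn data -/
def toS : SData where
  b := D.b
  h := D.h
  nT := D.nC + (D.h + 1) * D.nR
  rules := (List.range D.nR).flatMap (seqRules D)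

variable {D}

theorem mem_toS {R : SRule} : R ∈ (toS D).rules ↔ ∃ ρ < D.nR,
    R = ((D.rule ρ).1.getD 0 0, (D.rule ρ).1.getD ((D.rule ρ).1.length - 1) 0, st D ρ 0, D.h, 0, 0) ∨
    R = (st D ρ D.h, st D ρ D.h, (D.rule ρ).2.1, D.h, 0, 0) ∨
    ∃ j < D.h, ∃ a < D.b, ((D.rule ρ).op j).inDom a ∧
      R = (st D ρ j, st D ρ j, st D ρ (j + 1), j, a, ((D.rule ρ).op j).val D.b a) := by
  simp only [toS, seqRules, List.mem_flatMap, List.mem_range, List.mem_cons, List.mem_map,
    List.mem_filter, decide_eq_true_eq, and_assoc, eq_comm (a := R)]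

theorem setd_h {h : ℕ} (x : Fin h → ℕ) (a : ℕ) : setd x h a = x := by
  funext i
  exact if_neg i.2.ne

theorem st_inj {ρ ρ' j j' : ℕ} (hj : j ≤ D.h) (hj' : j' ≤ D.h) (h : st D ρ j = st D ρ' j') :
    ρ = ρ' ∧ j = j' := by
  have h1 : j + (D.h + 1) * ρ = j' + (D.h + 1) * ρ' := Nat.add_left_cancel h
  have h2 := congrArg (· % (D.h + 1)) h1
  simp only [Nat.add_mul_mod_self_left] at h2
  rw [Nat.mod_eq_of_lt (by omega), Nat.mod_eq_of_lt (by omega)] at h2
  subst h2
  exact ⟨Nat.eq_of_mul_eq_mul_left (Nat.succ_pos _) (Nat.add_left_cancel h1), rfl⟩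

theorem st_lt {ρ j : ℕ} (hρ : ρ < D.nR) (hj : j ≤ D.h) : st D ρ j < (toS D).nT := by
  have : (D.h + 1) * (ρ + 1) ≤ (D.h + 1) * D.nR := Nat.mul_le_mul_left _ hρ
  show D.nC + (j + (D.h + 1) * ρ) < D.nC + (D.h + 1) * D.nR
  rw [Nat.mul_succ] at this
  omega

theorem mem_prem (hD : D.Ok) {R : HRule} (hR : R ∈ D.rules) {c : ℕ} :
    c ∈ R.1 ↔ c = R.1.getD 0 0 ∨ c = R.1.getD (R.1.length - 1) 0 := by
  have h1 := hD.ne R hR
  have h2 := hD.len R hR
  rcases h3 : R.1 with _ | ⟨a, _ | ⟨b, _ | ⟨c, l⟩⟩⟩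
  · exact absurd h3 h1
  · simp
  · simp
  · rw [h3] at h2
    simp at h2

theorem rule_mem' {ρ : ℕ} (hρ : ρ < D.nR) : D.rule ρ ∈ D.rules := D.rule_mem ⟨ρ, hρ⟩

theorem nder_lt (hD : D.Ok) {c : ℕ} {y : Fin D.h → ℕ} (h : D.NDer c y) (i : Fin D.h) :
    y i < D.b := by
  cases h with
  | base => exact hD.hb
  | step R hR x _ _ _ => exact Nat.mod_lt _ hD.hb

/-- the meaning of the intermediate types -/
def Stage (ρ j : ℕ) (y : Fin D.h → ℕ) : Prop :=
  ∃ x : Fin D.h → ℕ, (∀ i, x i < D.b) ∧ (∀ c ∈ (D.rule ρ).1, D.NDer c x) ∧ ∀ i : Fin D.h,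
    (i.val < j → ((D.rule ρ).op i).inDom (x i) ∧ y i = ((D.rule ρ).op i).val D.b (x i)) ∧
      (j ≤ i.val → y i = x i)

theorem sound (hD : D.Ok) {c : ℕ} {y : Fin (toS D).h → ℕ} (h : (toS D).Der c y) :
    (c < D.nC → D.NDer c y) ∧ ∀ ρ j, j ≤ D.h → c = st D ρ j → Stage ρ j y := by
  have hC := hD.hC
  have hst : ∀ ρ j, ¬ st D ρ j < D.nC := fun ρ j => by unfold st; omega
  induction h with
  | base => exact ⟨fun _ => HData.NDer.base, fun ρ j _ h => absurd (h ▸ by omega) (hst ρ j)⟩
  | step R hR x _ _ ih1 ih2 =>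
    obtain ⟨ρ, hρ, h⟩ := mem_toS.1 hR
    have hm := rule_mem' hρ
    rcases h with rfl | rfl | ⟨j, hj, a, ha, hdom, rfl⟩
    · have e : ∀ a, setd (h := (toS D).h) x D.h a = x := setd_h x
      simp only [e] at ih1 ih2 ⊢
      refine ⟨fun h => absurd h (hst _ _), fun ρ' j hj h => ?_⟩
      obtain ⟨rfl, rfl⟩ := st_inj (Nat.zero_le _) hj h
      have h1 := ih1.1 (hD.lt _ hm _ ((mem_prem hD hm).2 (Or.inl rfl)))
      have h2 := ih2.1 (hD.lt _ hm _ ((mem_prem hD hm).2 (Or.inr rfl)))
      refine ⟨x, nder_lt hD h1, fun c hc => ?_, fun i => ⟨fun h => absurd h (by omega), fun _ => rfl⟩⟩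
      rcases (mem_prem hD hm).1 hc with rfl | rfl
      exacts [h1, h2]
    · have e : ∀ a, setd (h := (toS D).h) x D.h a = x := setd_h x
      simp only [e] at ih1 ih2 ⊢
      refine ⟨fun _ => ?_, fun ρ' j _ h => absurd (h ▸ hD.concl_lt _ hm) (hst ρ' j)⟩
      obtain ⟨z, h1, h2, h3⟩ := ih1.2 ρ D.h le_rfl rfl
      have h4 := HData.NDer.step _ hm z h1 (fun i => ((h3 i).1 i.2).1) h2
      have h5 : x = fun i : Fin D.h => ((D.rule ρ).op i).val D.b (z i) :=
        funext fun i => ((h3 i).1 i.2).2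
      exact h5 ▸ h4
    · refine ⟨fun h => absurd h (hst _ _), fun ρ' j' hj' h => ?_⟩
      obtain ⟨rfl, rfl⟩ := st_inj (Nat.succ_le_of_lt hj) hj' h
      obtain ⟨z, h1, h2, h3⟩ := ih1.2 ρ j hj.le rfl
      refine ⟨z, h1, h2, fun i => ?_⟩
      obtain ⟨h4, h5⟩ := h3 i
      simp only [setd] at h4 h5 ⊢
      by_cases hi : i.val = j
      · have h6 := h5 hi.ge
        rw [if_pos hi] at h6
        refine ⟨fun _ => ?_, fun h => absurd h (by omega)⟩
        rw [if_pos hi, hi, ← h6]
        exact ⟨hdom, rfl⟩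
      · rw [if_neg hi] at h4 h5 ⊢
        exact ⟨fun h => h4 (by omega), fun h => h5 (by omega)⟩

theorem complete (hD : D.Ok) {c : ℕ} {y : Fin D.h → ℕ} (h : D.NDer c y) : (toS D).Der c y := by
  induction h with
  | base => exact SData.Der.base
  | step R hR x hb hx _ ih =>
    obtain ⟨ρ, hρ, rfl⟩ : ∃ ρ < D.nR, R = D.rule ρ := by
      obtain ⟨n, hn, rfl⟩ := List.getElem_of_mem hR
      exact ⟨n, hn, (List.getD_eq_getElem _ _ hn).symm⟩
    have e : ∀ (x : Fin D.h → ℕ) a, setd (h := (toS D).h) x D.h a = x := setd_h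
    have key : ∀ j ≤ D.h, (toS D).Der (st D ρ j)
        fun i : Fin D.h => if i.val < j then ((D.rule ρ).op i).val D.b (x i) else x i := by
      intro j hj
      induction j with
      | zero =>
        have := SData.Der.step (S := toS D) _ (mem_toS.2 ⟨ρ, hρ, Or.inl rfl⟩) x
          (by simp only [e]; exact ih _ ((mem_prem hD hR).2 (Or.inl rfl)))
          (by simp only [e]; exact ih _ ((mem_prem hD hR).2 (Or.inr rfl)))
        simp only [e] at this
        simpa using this
      | succ j ihj =>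
        have h1 := ihj (by omega)
        have h2 : (fun i : Fin D.h => if i.val < j then ((D.rule ρ).op i).val D.b (x i) else x i) =
            setd (fun i : Fin D.h => if i.val < j then ((D.rule ρ).op i).val D.b (x i) else x i) j
              (x ⟨j, hj⟩) := by
          funext i
          by_cases hi : i.val = j
          · obtain rfl : i = ⟨j, hj⟩ := Fin.ext hi
            simp [setd]
          · simp [setd, hi]
        rw [h2] at h1
        have := SData.Der.step (S := toS D) _ (mem_toS.2 ⟨ρ, hρ, Or.inr (Or.inr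
          ⟨j, hj, x ⟨j, hj⟩, hb _, hx ⟨j, hj⟩, rfl⟩)⟩) _ h1 h1
        refine (congrArg ((toS D).Der (st D ρ (j + 1))) ?_).mpr this
        funext i
        by_cases hi : i.val = j
        · obtain rfl : i = ⟨j, hj⟩ := Fin.ext hi
          simp [setd]
        · have : i.val < j + 1 ↔ i.val < j := by omega
          simp [setd, hi, this]
    have h1 := key D.h le_rfl
    simp only [Fin.is_lt, if_true] at h1
    have := SData.Der.step (S := toS D) _ (mem_toS.2 ⟨ρ, hρ, Or.inr (Or.inl rfl)⟩)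
      (fun i : Fin D.h => ((D.rule ρ).op i).val D.b (x i))
      (by simp only [e]; exact h1) (by simp only [e]; exact h1)
    simpa only [e] using this

theorem toS_ok (hD : D.Ok) : (toS D).Ok := by
  have hC := hD.hC
  have hle : ∀ c < D.nC, c < (toS D).nT := fun c hc => Nat.lt_add_right _ hc
  have hst : ∀ ρ j, D.nC ≤ st D ρ j := fun ρ j => Nat.le_add_right _ _
  refine ⟨hD.hb, Nat.le_add_right_of_le hC, fun R hR => ?_, fun R hR => ?_, fun R hR => ?_,
    fun y hy => ?_⟩
  · obtain ⟨ρ, hρ, h⟩ := mem_toS.1 hR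
    have hm := rule_mem' hρ
    rcases h with rfl | rfl | ⟨j, hj, a, ha, hdom, rfl⟩
    · exact ⟨hle _ (hD.lt _ hm _ ((mem_prem hD hm).2 (Or.inl rfl))),
        hle _ (hD.lt _ hm _ ((mem_prem hD hm).2 (Or.inr rfl))), st_lt hρ (Nat.zero_le _), hD.hb,
        hD.hb⟩
    · exact ⟨st_lt hρ le_rfl, st_lt hρ le_rfl, hle _ (hD.concl_lt _ hm), hD.hb, hD.hb⟩
    · exact ⟨st_lt hρ hj.le, st_lt hρ hj.le, st_lt hρ hj, ha, Nat.mod_lt _ hD.hb⟩
  · obtain ⟨ρ, hρ, h⟩ := mem_toS.1 hR
    have hm := rule_mem' hρ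
    rcases h with rfl | rfl | ⟨j, hj, a, ha, hdom, rfl⟩
    · exact ⟨fun h => hD.goal_notin _ hm ((mem_prem hD hm).2 (Or.inl h.symm)),
        fun h => hD.goal_notin _ hm ((mem_prem hD hm).2 (Or.inr h.symm)),
        by have := hst ρ 0; simp only; omega⟩
    · exact ⟨by have := hst ρ D.h; simp only; omega, by have := hst ρ D.h; simp only; omega,
        hD.concl_ne _ hm⟩
    · have := hst ρ j
      have := hst ρ (j + 1)
      simp only
      omega
  · obtain ⟨ρ, hρ, h⟩ := mem_toS.1 hR
    have hm := rule_mem' hρ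
    rcases h with rfl | rfl | ⟨j, hj, a, ha, hdom, rfl⟩
    · refine Or.inr ⟨by have := hst ρ 0; simp only; omega, fun x hx => ?_⟩
      have e : ∀ a, setd (h := (toS D).h) x D.h a = x := setd_h x
      simp only [e] at hx ⊢
      obtain ⟨z, -, h2, h3⟩ := (sound hD hx).2 ρ 0 (Nat.zero_le _) rfl
      obtain rfl : x = z := funext fun i => (h3 i).2 (Nat.zero_le _)
      exact ⟨complete hD (h2 _ ((mem_prem hD hm).2 (Or.inl rfl))),
        complete hD (h2 _ ((mem_prem hD hm).2 (Or.inr rfl)))⟩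
    · exact Or.inl rfl
    · exact Or.inl rfl
  · have h1 := (sound hD hy).1 (by omega)
    generalize hc : (1 : ℕ) = c at h1
    cases h1 with
    | base => rfl
    | step R hR x hb _ _ => exact funext fun j => hD.goal_zero R hR hc.symm j j.2 _ (hb j)

theorem der_iff (hD : D.Ok) : ((toS D).Der 1 fun _ => 0) ↔ D.NDer 1 fun _ => 0 :=
  ⟨fun h => (sound hD h).1 (by have := hD.hC; omega), complete hD⟩

end Vale.Agent.N310X

/-!
# P310: the numbered graphs of parity systems with four slots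
-/

namespace Vale.Agent.N310X

open Finset Vale.Agent.P310
open Vale.Agent.P310.HData (div_add_mul mod_add_mul)

/-- a parity system with four slots, given by numbers -/
structure NSys where
  /-- number of variables -/
  nV : ℕ
  /-- number of constraints -/
  nE : ℕ
  /-- active slots -/
  act : ℕ → ℕ → Bool
  /-- the variable in a slot -/
  sv : ℕ → ℕ → ℕ
  /-- the right hand sides of the second graph -/
  par : ℕ → Bool

namespace NSys

variable (N : NSys)

/-- number of base vertices -/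
def nU : ℕ := N.nV * 2 + N.nE * 16

/-- number of leaf slots -/
def nL : ℕ := (N.nV + N.nE) * (N.nU + 1)

/-- number of vertices -/
def nTot : ℕ := N.nU * (N.nL + 1)

/-- does the assignment number `α` satisfy the constraint number `e`? -/
def okN (par : Bool) (e α : ℕ) : Bool :=
  decide (((List.range 4).filter fun t => N.act e t && α.testBit t).length % 2 =
    if par && N.par e then 1 else 0)

/-- adjacency of variable vertices and constraint vertices -/
def incN (par : Bool) (v s e α : ℕ) : Bool :=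
  N.okN par e α && (List.range 4).any fun t =>
    N.act e t && (decide (N.sv e t = v) && decide (α.testBit t = decide (s = 1)))

/-- adjacency of base vertices -/
def baseAdjN (par : Bool) (u u' : ℕ) : Bool :=
  if u < N.nV * 2 then
    if u' < N.nV * 2 then false
    else N.incN par (u / 2) (u % 2) ((u' - N.nV * 2) / 16) ((u' - N.nV * 2) % 16)
  else
    if u' < N.nV * 2 then N.incN par (u' / 2) (u' % 2) ((u - N.nV * 2) / 16) ((u - N.nV * 2) % 16)
    else false

/-- the item of a base vertex -/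
def itemN (u : ℕ) : ℕ := if u < N.nV * 2 then u / 2 else N.nV + (u - N.nV * 2) / 16

/-- base vertices that carry leaves -/
def liveN (par : Bool) (u : ℕ) : Bool :=
  if u < N.nV * 2 then true else N.okN par ((u - N.nV * 2) / 16) ((u - N.nV * 2) % 16)

/-- is the base vertex `u` joined to its leaf slot `l`? -/
def leafN (par : Bool) (u l : ℕ) : Bool :=
  N.liveN par u && decide (l < (N.itemN u + 1) * (N.nU + 1))

/-- adjacency of vertices (as numbers; numbers `≥ nTot` are isolated vertices) -/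
def adjN (par : Bool) (x y : ℕ) : Bool :=
  decide (x < N.nTot) && (decide (y < N.nTot) &&
  (let u := x / (N.nL + 1)
   let l := x % (N.nL + 1)
   let u' := y / (N.nL + 1)
   let l' := y % (N.nL + 1)
   (decide (l = 0) && (decide (l' = 0) && N.baseAdjN par u u')) ||
    (decide (u = u') && ((decide (l = 0) && (!decide (l' = 0) && N.leafN par u (l' - 1))) ||
      (decide (l' = 0) && (!decide (l = 0) && N.leafN par u (l - 1)))))))

/-- the bits of the adjacency matrix of the graph with `n` vertices -/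
def bitsN (par : Bool) (n : ℕ) : List Bool :=
  (List.range n).flatMap fun x => (List.range n).map fun y => N.adjN par x y

/-- `N` presents the slot system `T` with the right hand sides `p'` -/
structure Pres {V C : Type} (T : SlotSys V C (Fin 4)) (p' : C → ZMod 2) where
  /-- numbers of variables -/
  vE : V ≃ Fin N.nV
  /-- numbers of constraints -/
  cE : C ≃ Fin N.nE
  act : ∀ e (t : Fin 4), N.act (cE e) t = true ↔ t ∈ T.act e
  sv : ∀ e, ∀ t ∈ T.act e, N.sv (cE e) t = vE (T.sv e t)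
  par : ∀ e, p' e = if N.par (cE e) then 1 else 0
  pos : 0 < N.nE

variable {N} {V C : Type} {T : SlotSys V C (Fin 4)} {p' : C → ZMod 2} (R : N.Pres T p')

namespace Pres

/-- numbers of assignments -/
def aE : (Fin 4 → ZMod 2) ≃ Fin 16 := finFunctionFinEquiv (m := 2) (n := 4)

/-- numbers of base vertices -/
def uE : BaseV V C (Fin 4) ≃ Fin N.nU :=
  (Equiv.sumCongr ((Equiv.prodCongr R.vE (Equiv.refl (Fin 2))).trans finProdFinEquiv)
    ((Equiv.prodCongr R.cE aE).trans finProdFinEquiv)).trans finSumFinEquiv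

theorem uE_inl (v : V) (s : ZMod 2) : (R.uE (.inl (v, s)) : ℕ) = s.val + 2 * (R.vE v : ℕ) := rfl

theorem uE_inr (e : C) (α : Fin 4 → ZMod 2) :
    (R.uE (.inr (e, α)) : ℕ) = N.nV * 2 + ((aE α : ℕ) + 16 * (R.cE e : ℕ)) := rfl

/-- numbers of vertices -/
def xE : CfiV V C (Fin 4) N.nL ≃ Fin N.nTot :=
  (Equiv.prodCongr R.uE (Equiv.refl _)).trans finProdFinEquiv

theorem xE_val (x : CfiV V C (Fin 4) N.nL) : (R.xE x : ℕ) = x.2 + (N.nL + 1) * (R.uE x.1 : ℕ) := rfl

/-- the number of an item -/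
def iN : V ⊕ C → ℕ
  | .inl v => R.vE v
  | .inr e => N.nV + R.cE e

/-- the number of leaves of an item -/
def cntN (i : V ⊕ C) : ℕ := (R.iN i + 1) * (N.nU + 1)

theorem aE_testBit (α : Fin 4 → ZMod 2) (t : Fin 4) : (aE α : ℕ).testBit t = decide (α t = 1) := by
  revert α t
  decide

theorem okN_iff (par : Bool) (e : C) (α : Fin 4 → ZMod 2) :
    N.okN par (R.cE e) (aE α) = true ↔ T.Ok (fun e => if par then p' e else 0) e α := by
  classical
  have h1 : (((List.range 4).filter fun t => N.act (R.cE e) t && (aE α : ℕ).testBit t).length :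
      ZMod 2) = ∑ t ∈ T.act e, α t := by
    have h2 : ((List.range 4).filter fun t => N.act (R.cE e) t && (aE α : ℕ).testBit t).length =
        ((Finset.range 4).filter fun t =>
          (N.act (R.cE e) t && (aE α : ℕ).testBit t) = true).card := by
      rw [Finset.card, Finset.filter_val, Finset.range_val, Multiset.range, Multiset.filter_coe,
        Multiset.coe_card]
      congr 1
      exact List.filter_congr fun x _ => by simp
    rw [h2, Finset.card_filter, Nat.cast_sum, Finset.sum_range, ← univ_inter (T.act e),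
      ← sum_ite_mem]
    refine Finset.sum_congr rfl fun t _ => ?_
    rw [aE_testBit]
    by_cases ha : t ∈ T.act e
    · have h3 : ∀ z : ZMod 2, ((if (decide (z = 1)) = true then 1 else 0 : ℕ) : ZMod 2) = z := by
        decide
      simp only [ha, (R.act e t).2 ha, Bool.true_and, if_true]
      exact h3 (α t)
    · have : N.act (R.cE e) t = false := by simpa using fun h => ha ((R.act e t).1 h)
      simp [ha, this]
  rw [okN, decide_eq_true_iff, SlotSys.Ok, ← h1]
  have h4 : (if par then p' e else 0) =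
      ((if par && N.par (R.cE e) then 1 else 0 : ℕ) : ZMod 2) := by
    rw [R.par]
    cases par <;> cases N.par (R.cE e) <;> simp
  rw [h4, ZMod.natCast_eq_natCast_iff']
  have h5 : ∀ c : Bool, (if c then 1 else 0) % 2 = (if c then 1 else 0 : ℕ) := by decide
  rw [h5]

theorem incN_iff (par : Bool) (v : V) (s : ZMod 2) (e : C) (α : Fin 4 → ZMod 2) :
    N.incN par (R.vE v) s.val (R.cE e) (aE α) = true ↔
      T.Inc (fun e => if par then p' e else 0) v s e α := by
  rw [incN, Bool.and_eq_true, okN_iff, SlotSys.Inc, List.any_eq_true]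
  refine and_congr Iff.rfl ?_
  have hs : ∀ z s : ZMod 2, (decide (decide (z = 1) = decide (s.val = 1)) = true) ↔
      z = s := by decide
  constructor
  · rintro ⟨t, ht, h⟩
    rw [List.mem_range] at ht
    rw [Bool.and_eq_true, Bool.and_eq_true, decide_eq_true_iff] at h
    obtain ⟨h1, h2, h3⟩ := h
    have h4 := (R.act e ⟨t, ht⟩).1 h1
    refine ⟨⟨t, ht⟩, h4, ?_, ?_⟩
    · exact R.vE.injective (Fin.ext ((R.sv e _ h4).symm.trans h2))
    · rw [aE_testBit α ⟨t, ht⟩] at h3
      exact (hs _ _).1 h3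
  · rintro ⟨t, ht, h2, h3⟩
    refine ⟨t, List.mem_range.2 t.2, ?_⟩
    rw [Bool.and_eq_true, Bool.and_eq_true, decide_eq_true_iff, R.sv e t ht, aE_testBit]
    exact ⟨(R.act e t).2 ht, by rw [h2], (hs _ _).2 h3⟩

theorem uE_inl_lt (v : V) (s : ZMod 2) : (R.uE (.inl (v, s)) : ℕ) < N.nV * 2 := by
  rw [uE_inl]
  have h1 := (R.vE v).2
  have h2 := s.val_lt
  omega

theorem baseAdjN_iff (par : Bool) (u u' : BaseV V C (Fin 4)) :
    N.baseAdjN par (R.uE u) (R.uE u') = true ↔
      T.BaseAdj (fun e => if par then p' e else 0) u u' := by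
  have hv : ∀ (v : V) (s : ZMod 2), (R.uE (.inl (v, s)) : ℕ) / 2 = R.vE v := by
    intro v s
    rw [uE_inl, div_add_mul s.val_lt]
  have hs : ∀ (v : V) (s : ZMod 2), (R.uE (.inl (v, s)) : ℕ) % 2 = s.val := by
    intro v s
    rw [uE_inl, mod_add_mul s.val_lt]
  have he : ∀ (e : C) (α : Fin 4 → ZMod 2),
      ((R.uE (.inr (e, α)) : ℕ) - N.nV * 2) / 16 = R.cE e := by
    intro e α
    rw [uE_inr, Nat.add_sub_cancel_left, div_add_mul (aE α).2]
  have ha : ∀ (e : C) (α : Fin 4 → ZMod 2), ((R.uE (.inr (e, α)) : ℕ) - N.nV * 2) % 16 = aE α := by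
    intro e α
    rw [uE_inr, Nat.add_sub_cancel_left, mod_add_mul (aE α).2]
  have hr : ∀ (e : C) (α : Fin 4 → ZMod 2), ¬ (R.uE (.inr (e, α)) : ℕ) < N.nV * 2 := by
    intro e α
    rw [uE_inr]
    omega
  rcases u with ⟨v, s⟩ | ⟨e, α⟩ <;> rcases u' with ⟨v', s'⟩ | ⟨e', α'⟩
  · rw [baseAdjN, if_pos (R.uE_inl_lt v s), if_pos (R.uE_inl_lt v' s')]
    simp [SlotSys.BaseAdj]
  · rw [baseAdjN, if_pos (R.uE_inl_lt v s), if_neg (hr e' α'), hv, hs, he, ha, incN_iff]
    rfl
  · rw [baseAdjN, if_neg (hr e α), if_pos (R.uE_inl_lt v' s'), hv, hs, he, ha, incN_iff]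
    rfl
  · rw [baseAdjN, if_neg (hr e α), if_neg (hr e' α')]
    simp [SlotSys.BaseAdj]

theorem leafN_iff (par : Bool) (u : BaseV V C (Fin 4)) (l : ℕ) :
    N.leafN par (R.uE u) l = true ↔ T.LeafAdj (fun e => if par then p' e else 0) R.cntN u l := by
  rw [leafN, Bool.and_eq_true, decide_eq_true_iff, SlotSys.LeafAdj]
  have h1 : N.itemN (R.uE u) = R.iN (SlotSys.item u) := by
    rcases u with ⟨v, s⟩ | ⟨e, α⟩
    · rw [itemN, if_pos (R.uE_inl_lt v s), uE_inl, div_add_mul s.val_lt]
      rfl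
    · rw [itemN, if_neg (by rw [uE_inr]; omega), uE_inr, Nat.add_sub_cancel_left,
        div_add_mul (aE α).2]
      rfl
  rw [h1]
  refine and_congr ?_ Iff.rfl
  rcases u with ⟨v, s⟩ | ⟨e, α⟩
  · rw [liveN, if_pos (R.uE_inl_lt v s)]
    simp [SlotSys.Live]
  · rw [liveN, if_neg (by rw [uE_inr]; omega), uE_inr, Nat.add_sub_cancel_left,
      div_add_mul (aE α).2, mod_add_mul (aE α).2, okN_iff]
    rfl

theorem adjN_iff (par : Bool) (x y : CfiV V C (Fin 4) N.nL) :
    N.adjN par (R.xE x) (R.xE y) = true ↔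
      (T.graph (fun e => if par then p' e else 0) R.cntN N.nL).Adj x y := by
  have h1 : ∀ x : CfiV V C (Fin 4) N.nL, (R.xE x : ℕ) / (N.nL + 1) = R.uE x.1 := by
    intro x
    rw [xE_val, div_add_mul x.2.2]
  have h2 : ∀ x : CfiV V C (Fin 4) N.nL, (R.xE x : ℕ) % (N.nL + 1) = x.2 := by
    intro x
    rw [xE_val, mod_add_mul x.2.2]
  have h3 : (R.uE x.1 : ℕ) = (R.uE y.1 : ℕ) ↔ x.1 = y.1 :=
    ⟨fun h => R.uE.injective (Fin.ext h), fun h => by rw [h]⟩
  rw [adjN]
  simp only [h1, h2, Bool.and_eq_true, Bool.or_eq_true, decide_eq_true_iff, Bool.not_eq_true',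
    decide_eq_false_iff_not, (R.xE x).2, (R.xE y).2, true_and, h3, baseAdjN_iff, leafN_iff]
  show _ ↔ (x.2.val = 0 ∧ y.2.val = 0 ∧ _) ∨ (x.1 = y.1 ∧ x.2.val = 0 ∧ y.2.val ≠ 0 ∧ _) ∨
    (x.1 = y.1 ∧ y.2.val = 0 ∧ x.2.val ≠ 0 ∧ _)
  constructor
  · rintro (h | ⟨h, h' | h'⟩)
    · exact Or.inl h
    · exact Or.inr (Or.inl ⟨h, h'⟩)
    · exact Or.inr (Or.inr ⟨h, h'⟩)
  · rintro (h | h | h)
    · exact Or.inl h
    · exact Or.inr ⟨h.1, Or.inl h.2⟩
    · exact Or.inr ⟨h.1, Or.inr h.2⟩

theorem cntN_ok [Fintype V] [Fintype C] : CntOk V C (Fin 4) R.cntN N.nL := by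
  have h0 : 0 < N.nU := by
    have := R.pos
    unfold nU
    omega
  refine cntOk_of_idx (B := N.nU + 1) R.iN ?_ ?_ (by omega) ?_
  · rintro (v | e) (v' | e') h
    · rw [R.vE.injective (Fin.ext h)]
    · have h1 : (R.vE v : ℕ) = N.nV + R.cE e' := h
      have := (R.vE v).2
      omega
    · have h1 : N.nV + R.cE e = (R.vE v' : ℕ) := h
      have := (R.vE v').2
      omega
    · have h1 : N.nV + R.cE e = N.nV + (R.cE e' : ℕ) := h
      rw [R.cE.injective (Fin.ext (Nat.add_left_cancel h1))]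
  · refine (Fintype.card_congr R.uE).le.trans ?_
    rw [Fintype.card_fin]
    omega
  · rintro (v | e)
    · exact Nat.mul_le_mul_right _ (Nat.lt_add_right _ (R.vE v).2)
    · exact Nat.mul_le_mul_right _ (Nat.add_lt_add_left (R.cE e).2 _)

omit R in
theorem adjN_false {par : Bool} {x y : ℕ} (h : ¬ (x < N.nTot ∧ y < N.nTot)) :
    N.adjN par x y = false := by
  rw [adjN]
  by_cases hx : x < N.nTot
  · have hy : ¬ y < N.nTot := fun hy => h ⟨hx, hy⟩
    simp [hy]
  · simp [hx]

/-- The numbered graph with `n` vertices. -/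
def numGraph (par : Bool) (n : ℕ) : SimpleGraph (Fin n) where
  Adj i j := N.adjN par i j = true
  symm := ⟨fun x y h => by
    by_cases hxy : x.val < N.nTot ∧ y.val < N.nTot
    · obtain ⟨a, ha⟩ := R.xE.surjective ⟨x, hxy.1⟩
      obtain ⟨b, hb⟩ := R.xE.surjective ⟨y, hxy.2⟩
      have ha' : (R.xE a : ℕ) = x := congrArg Fin.val ha
      have hb' : (R.xE b : ℕ) = y := congrArg Fin.val hb
      rw [← ha', ← hb', adjN_iff] at h ⊢
      exact h.symm
    · rw [adjN_false hxy] at h
      exact absurd h (by simp)⟩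
  loopless := ⟨fun x h => by
    by_cases hx : x.val < N.nTot
    · obtain ⟨a, ha⟩ := R.xE.surjective ⟨x, hx⟩
      have ha' : (R.xE a : ℕ) = x := congrArg Fin.val ha
      rw [← ha', adjN_iff] at h
      exact h.ne rfl
    · rw [adjN_false fun h => hx h.1] at h
      exact absurd h (by simp)⟩

theorem adjBits_numGraph (par : Bool) (n : ℕ) : adjBits (R.numGraph par n) = N.bitsN par n :=
  adjBits_eq _ _ fun _ _ => Iff.rfl

/-- The numbered graph is the graph of the slot system with isolated vertices added. -/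
def numIso (par : Bool) (m : ℕ) :
    ((T.graph (fun e => if par then p' e else 0) R.cntN N.nL) ⊕g (⊥ : SimpleGraph (Fin m))) ≃g
      R.numGraph par (N.nTot + m) where
  toEquiv := (Equiv.sumCongr R.xE (Equiv.refl (Fin m))).trans finSumFinEquiv
  map_rel_iff' := by
    rintro (x | x) (y | y)
    · show N.adjN par (R.xE x) (R.xE y) = true ↔ _
      rw [adjN_iff]
      simp
    · show N.adjN par (R.xE x) (N.nTot + y) = true ↔ _
      rw [adjN_false fun h => absurd h.2 (by omega)]
      simp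
    · show N.adjN par (N.nTot + x) (R.xE y) = true ↔ _
      rw [adjN_false fun h => absurd h.1 (by omega)]
      simp
    · show N.adjN par (N.nTot + x) (N.nTot + y) = true ↔ _
      rw [adjN_false fun h => absurd h.1 (by omega)]
      simp

theorem wlEquiv_numGraph [Fintype V] [Fintype C] {k : ℕ} (hk : 2 ≤ k) (m : ℕ) :
    WLEquiv k (R.numGraph false (N.nTot + m)) (R.numGraph true (N.nTot + m)) ↔
      WLEquiv k (T.graph (fun _ => 0) R.cntN N.nL) (T.graph p' R.cntN N.nL) := by
  rw [← WLEquiv.congr_iso (R.numIso false m) (R.numIso true m)]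
  exact wlEquiv_sum_bot hk

end Pres

end NSys

/-! ### the numbers of the system of simple Horn data -/

namespace SData

variable (S : SData) (K : ℕ)

/-- number of links -/
def nLk : ℕ := S.nS * (2 * ((K + 1) * 3))

/-- number of kinds -/
def nKd : ℕ := (S.nT + S.nS * (2 * (K + 1))) * 3

/-- number of equations -/
def nEq : ℕ := S.nLk K + (S.nS * 3 + 4)

/-- number of a type in a chain -/
def privN (ρ i t : ℕ) : ℕ := S.nT + (t + (K + 1) * i + 2 * (K + 1) * ρ)

/-- the numbers of the kinds of the equation number `e` -/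
def klN (e : ℕ) : List ℕ :=
  if e < S.nLk K then
    let ρ := e / (2 * ((K + 1) * 3))
    let i := e % (2 * ((K + 1) * 3)) / ((K + 1) * 3)
    let t := e % (2 * ((K + 1) * 3)) % ((K + 1) * 3) / 3
    let m := e % (2 * ((K + 1) * 3)) % ((K + 1) * 3) % 3
    [m + 3 * (if t = 0 then S.prem ρ i % S.nT else S.privN K ρ i (t - 1)), m + 3 * S.privN K ρ i t]
  else if e - S.nLk K < S.nS * 3 then
    let ρ := (e - S.nLk K) / 3
    let m := (e - S.nLk K) % 3
    [(m + 1) % 3 + 3 * S.privN K ρ 0 K, (m + 2) % 3 + 3 * S.privN K ρ 1 K,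
      m + 3 * ((S.rule ρ).2.2.1 % S.nT)]
  else
    let u := e - S.nLk K - S.nS * 3
    [if u < 3 then u + 3 * (0 % S.nT) else 0 + 3 * (1 % S.nT)]

/-- the symbol in slot `t` -/
def symN (e t j a : ℕ) : ℕ :=
  if e < S.nLk K then a
  else if e - S.nLk K < S.nS * 3 then
    let R := S.rule ((e - S.nLk K) / 3)
    if j = R.2.2.2.1 then (if t = 2 then R.2.2.2.2.2 else R.2.2.2.2.1) % S.b else a
  else 0 % S.b

/-- the numeric parity system for the dimension `k` -/
def nsys (k : ℕ) : NSys where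
  nV := S.nKd K * (k * S.b) + S.nEq K * (k * 2)
  nE := S.nEq K * (k * S.b) + S.nEq K * k
  act c t :=
    if c < S.nEq K * (k * S.b) then
      decide (t < (S.klN K (c / (k * S.b))).length) || decide (t = 3)
    else
      let r := (c - S.nEq K * (k * S.b)) % k
      decide (t = 0) || (decide (t = 1) && decide (0 < r) || decide (t = 2) && decide (r + 1 < k))
  sv c t :=
    if c < S.nEq K * (k * S.b) then
      let e := c / (k * S.b)
      let r := c % (k * S.b) / S.b
      if t < 3 then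
        S.symN K e t (r % S.h) (c % (k * S.b) % S.b) + S.b * r + k * S.b * (S.klN K e).getD t 0
      else S.nKd K * (k * S.b) + (0 + 2 * r + k * 2 * e)
    else
      let e := (c - S.nEq K * (k * S.b)) / k
      let r := (c - S.nEq K * (k * S.b)) % k
      S.nKd K * (k * S.b) + ((if t = 0 then 0 else 1) + 2 * (if t = 2 then r + 1 else r) + k * 2 * e)
  par c := !decide (c < S.nEq K * (k * S.b)) && (decide ((c - S.nEq K * (k * S.b)) % k + 1 = k) &&
    decide ((c - S.nEq K * (k * S.b)) / k = S.nLk K + (S.nS * 3 + 3)))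

/-- numbers of kinds -/
def kdE : S.Kd K ≃ Fin (S.nKd K) :=
  (Equiv.prodCongr ((Equiv.sumCongr (Equiv.refl _) ((Equiv.prodCongr (Equiv.refl _)
    finProdFinEquiv).trans finProdFinEquiv)).trans finSumFinEquiv) (Equiv.refl _)).trans
      finProdFinEquiv

/-- numbers of equations -/
def eqE : S.Eqn K ≃ Fin (S.nEq K) :=
  (Equiv.sumCongr ((Equiv.prodCongr (Equiv.refl _) ((Equiv.prodCongr (Equiv.refl _)
    finProdFinEquiv).trans finProdFinEquiv)).trans finProdFinEquiv)
    ((Equiv.sumCongr finProdFinEquiv (Equiv.refl _)).trans finSumFinEquiv)).trans finSumFinEquiv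

variable {S K}

theorem kdE_inl (c : Fin S.nT) (m : Fin 3) : (S.kdE K (.inl c, m) : ℕ) = m + 3 * c := rfl

theorem kdE_inr (ρ : Fin S.nS) (i : Fin 2) (t : Fin (K + 1)) (m : Fin 3) :
    (S.kdE K (.inr (ρ, i, t), m) : ℕ) = m + 3 * S.privN K ρ i t := rfl

theorem eqE_link (ρ : Fin S.nS) (i : Fin 2) (t : Fin (K + 1)) (m : Fin 3) :
    (S.eqE K (.inl (ρ, i, t, m)) : ℕ) =
      m + 3 * t + (K + 1) * 3 * i + 2 * ((K + 1) * 3) * ρ := rfl

theorem eqE_fin (ρ : Fin S.nS) (m : Fin 3) :
    (S.eqE K (.inr (.inl (ρ, m))) : ℕ) = S.nLk K + (m + 3 * ρ) := rfl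

theorem eqE_un (u : Fin 4) : (S.eqE K (.inr (.inr u)) : ℕ) = S.nLk K + (S.nS * 3 + u) := rfl

theorem link_lt (c : Fin S.nS × Fin 2 × Fin (K + 1) × Fin 3) :
    (S.eqE K (.inl c) : ℕ) < S.nLk K :=
  (((Equiv.prodCongr (Equiv.refl _) ((Equiv.prodCongr (Equiv.refl _)
    finProdFinEquiv).trans finProdFinEquiv)).trans finProdFinEquiv) c).2

variable (hS : S.Ok)

theorem klN_eq (e : S.Eqn K) : S.klN K (S.eqE K e) = (kl hS K e).map fun ξ => (S.kdE K ξ : ℕ) := by
  rcases e with ⟨ρ, i, t, m⟩ | ⟨ρ, m⟩ | u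
  · have h1 : (m : ℕ) + 3 * t < (K + 1) * 3 := by omega
    have h2 : (m : ℕ) + 3 * t + (K + 1) * 3 * i < 2 * ((K + 1) * 3) :=
      (finProdFinEquiv (i, finProdFinEquiv (t, m))).2
    rw [klN, if_pos (link_lt _)]
    simp only [eqE_link, div_add_mul h2, mod_add_mul h2, div_add_mul h1, mod_add_mul h1,
      div_add_mul m.2, mod_add_mul m.2, kl, List.map_cons, List.map_nil, kdE_inr, prev]
    split_ifs <;> rfl
  · have h1 : (m : ℕ) + 3 * ρ < S.nS * 3 := (finProdFinEquiv (ρ, m)).2
    rw [klN, eqE_fin, if_neg (by omega), Nat.add_sub_cancel_left, if_pos h1]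
    simp only [div_add_mul m.2, mod_add_mul m.2, kl, List.map_cons, List.map_nil, kdE_inr]
    rfl
  · rw [klN, eqE_un, if_neg (by omega), Nat.add_sub_cancel_left, if_neg (by omega)]
    simp only [Nat.add_sub_cancel_left, kl, List.map_cons, List.map_nil]
    split_ifs <;> rfl

theorem symN_eq (e : S.Eqn K) {t : ℕ} (ht : t < (kl hS K e).length) (j : Fin S.h) (a : Fin S.b) :
    S.symN K (S.eqE K e) t j a = (xsys hS K).sym e ((kl hS K e)[t]) j a := by
  rcases e with ⟨ρ, i, t', m⟩ | ⟨ρ, m⟩ | u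
  · rw [symN, if_pos (link_lt _)]
    simp [XSys.sym, xsys]
  · have h1 : (m : ℕ) + 3 * ρ < S.nS * 3 := (finProdFinEquiv (ρ, m)).2
    rw [symN, eqE_fin, if_neg (by omega), Nat.add_sub_cancel_left, if_pos h1]
    simp only [div_add_mul m.2, XSys.sym]
    by_cases hj : (j : ℕ) = (S.rule ρ).2.2.2.1
    · rw [if_pos hj, if_neg (show ¬ (xsys hS K).keep (.inr (.inl (ρ, m))) j from not_not.2 hj)]
      have h2 : t < 3 := ht
      interval_cases t <;> rfl
    · rw [if_neg hj, if_pos (show (xsys hS K).keep (.inr (.inl (ρ, m))) j from hj)]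
  · rw [symN, eqE_un, if_neg (by omega), Nat.add_sub_cancel_left, if_neg (by omega)]
    simp [XSys.sym, xsys, smb]

theorem kl_len (e : S.Eqn K) : (kl hS K e).length ≤ 3 := by
  rcases e with ⟨ρ, i, t', m⟩ | ⟨ρ, m⟩ | u <;> simp [kl]

variable (K) {k : ℕ} (P : Rows k S.h)

/-- the slot system -/
noncomputable def slots :
    SlotSys (PV (Fin S.b) (S.Kd K) (S.Eqn K) k) (PC (Fin S.b) (S.Eqn K) k) (Fin 4) where
  act
    | .inl (e, _, _) => univ.filter fun t => t.val < (kl hS K e).length ∨ t.val = 3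
    | .inr (_, r) => univ.filter fun t =>
        t.val = 0 ∨ (t.val = 1 ∧ 0 < r.val) ∨ (t.val = 2 ∧ r.val + 1 < k)
  sv
    | .inl (e, r, a) => fun t => if h : t.val < (kl hS K e).length then
        .inl ((kl hS K e)[t.val], r, (xsys hS K).sym e ((kl hS K e)[t.val]) (P.π r) a)
        else .inr (e, r, 0)
    | .inr (e, r) => fun t => .inr (e, if h : t.val = 2 ∧ r.val + 1 < k then ⟨r.val + 1, h.2⟩ else r,
        if t.val = 0 then 0 else 1)
  inj := by
    rintro (⟨e, r, a⟩ | ⟨e, r⟩) t ht t' ht' h <;>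
      simp only [coe_filter, mem_univ, true_and, Set.mem_ofPred_eq] at ht ht' h
    · split_ifs at h with h1 h2 h2
      · exact Fin.ext ((List.Nodup.getElem_inj_iff (kl_nodup hS K e)).1
          (congrArg Prod.fst (Sum.inl.inj h)))
      · exact Fin.ext (by omega)
    · simp only [Sum.inr.injEq, Prod.mk.injEq, true_and] at h
      obtain ⟨h1, h2⟩ := h
      apply Fin.ext
      split_ifs at h1 h2 <;> simp only [Fin.ext_iff] at h1 <;> omega

theorem slots_vars (c : PC (Fin S.b) (S.Eqn K) k) :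
    (slots K hS P).vars c = (xsys hS K).pvars P c := by
  ext v
  rw [SlotSys.sp_mem_vars]
  rcases c with ⟨e, r, a⟩ | ⟨e, r⟩
  · have := kl_len hS e
    simp only [slots, XSys.pvars, mem_filter, mem_univ, true_and, mem_insert, mem_image, mem_kinds]
    constructor
    · rintro ⟨t, ht, rfl⟩
      split_ifs with h
      · exact Or.inr ⟨_, List.getElem_mem h, rfl⟩
      · exact Or.inl rfl
    · rintro (rfl | ⟨ξ, hξ, rfl⟩)
      · exact ⟨3, Or.inr rfl, dif_neg (show ¬ 3 < _ by omega)⟩
      · obtain ⟨n, hn, rfl⟩ := List.getElem_of_mem hξ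
        exact ⟨⟨n, by omega⟩, Or.inl hn, dif_pos hn⟩
  · simp only [slots, XSys.pvars, mem_filter, mem_univ, true_and, mem_insert, mem_union]
    constructor
    · rintro ⟨t, ht | ht | ht, rfl⟩
      · left
        rw [dif_neg (by omega), if_pos ht]
      · right; left
        rw [dif_neg (by omega), if_pos ht.2, if_neg (show ¬ t.val = 0 by omega)]
        exact mem_singleton_self _
      · right; right
        rw [dif_pos ht, dif_pos ht.2, if_neg (show ¬ t.val = 0 by omega)]
        exact mem_singleton_self _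
    · rintro (rfl | h | h)
      · exact ⟨0, Or.inl rfl, by simp⟩
      · split_ifs at h with h1
        · exact ⟨1, Or.inr (Or.inl ⟨rfl, h1⟩), by simp [mem_singleton.1 h]⟩
        · exact absurd h (notMem_empty _)
      · split_ifs at h with h1
        · exact ⟨2, Or.inr (Or.inr ⟨rfl, h1⟩), by simp [mem_singleton.1 h, h1]⟩
        · exact absurd h (notMem_empty _)

/-- the numeric system presents the slot system -/
noncomputable def pres (hk : 0 < k) (hP : ∀ r, (P.π r : ℕ) = r % S.h) :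
    (S.nsys K k).Pres (slots K hS P) (xsys hS K).ppar where
  vE := (Equiv.sumCongr ((Equiv.prodCongr (S.kdE K) finProdFinEquiv).trans finProdFinEquiv)
    ((Equiv.prodCongr (S.eqE K) finProdFinEquiv).trans finProdFinEquiv)).trans finSumFinEquiv
  cE := (Equiv.sumCongr ((Equiv.prodCongr (S.eqE K) finProdFinEquiv).trans finProdFinEquiv)
    ((Equiv.prodCongr (S.eqE K) (Equiv.refl _)).trans finProdFinEquiv)).trans finSumFinEquiv
  act := by
    rintro (⟨e, r, a⟩ | ⟨e, r⟩) t
    · have h1 : (a : ℕ) + S.b * r < k * S.b := (finProdFinEquiv (r, a)).2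
      have h2 : (a : ℕ) + S.b * r + k * S.b * S.eqE K e < S.nEq K * (k * S.b) :=
        (finProdFinEquiv (S.eqE K e, finProdFinEquiv (r, a))).2
      show (S.nsys K k).act ((a : ℕ) + S.b * r + k * S.b * S.eqE K e) t = true ↔ _
      simp only [nsys, if_pos h2, div_add_mul h1, klN_eq hS, slots]
      simp
    · show (S.nsys K k).act (S.nEq K * (k * S.b) + (r + k * S.eqE K e)) t = true ↔ _
      simp only [nsys, Nat.not_lt.2 (Nat.le_add_right _ _), if_false, Nat.add_sub_cancel_left,
        mod_add_mul r.2, slots]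
      simp
  sv := by
    rintro (⟨e, r, a⟩ | ⟨e, r⟩) t ht
    · have h1 : (a : ℕ) + S.b * r < k * S.b := (finProdFinEquiv (r, a)).2
      have h2 : (a : ℕ) + S.b * r + k * S.b * S.eqE K e < S.nEq K * (k * S.b) :=
        (finProdFinEquiv (S.eqE K e, finProdFinEquiv (r, a))).2
      have h3 := kl_len hS e
      show (S.nsys K k).sv ((a : ℕ) + S.b * r + k * S.b * S.eqE K e) t = _
      simp only [slots, mem_filter, mem_univ, true_and] at ht
      simp only [nsys, if_pos h2, div_add_mul h1, mod_add_mul h1, div_add_mul a.2, mod_add_mul a.2,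
        klN_eq hS, slots]
      by_cases h4 : t.val < (kl hS K e).length
      · rw [if_pos (by omega), dif_pos h4, ← hP, symN_eq hS e h4,
          List.getD_eq_getElem _ _ (by simpa using h4), List.getElem_map]
        rfl
      · rw [if_neg (by omega), dif_neg h4]
        rfl
    · show (S.nsys K k).sv (S.nEq K * (k * S.b) + (r + k * S.eqE K e)) t = _
      simp only [slots, mem_filter, mem_univ, true_and] at ht
      simp only [nsys, Nat.not_lt.2 (Nat.le_add_right _ _), if_false, Nat.add_sub_cancel_left,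
        mod_add_mul r.2, div_add_mul r.2, slots]
      rcases ht with ht | ht | ht
      · rw [if_pos ht, if_neg (by omega), dif_neg (by omega), if_pos ht]
        rfl
      · rw [if_neg (by omega), if_neg (by omega), dif_neg (by omega), if_neg (by omega)]
        rfl
      · rw [if_neg (by omega), if_pos ht.1, dif_pos ht, if_neg (by omega)]
        rfl
  par := by
    rintro (⟨e, r, a⟩ | ⟨e, r⟩)
    · have h2 : (a : ℕ) + S.b * r + k * S.b * S.eqE K e < S.nEq K * (k * S.b) :=
        (finProdFinEquiv (S.eqE K e, finProdFinEquiv (r, a))).2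
      show _ = if (S.nsys K k).par ((a : ℕ) + S.b * r + k * S.b * S.eqE K e) then _ else _
      simp [nsys, h2, XSys.ppar]
    · show _ = if (S.nsys K k).par (S.nEq K * (k * S.b) + (r + k * S.eqE K e)) then _ else _
      simp only [nsys, Nat.not_lt.2 (Nat.le_add_right _ _), Nat.add_sub_cancel_left,
        mod_add_mul r.2, div_add_mul r.2, XSys.ppar]
      have h1 : (xsys hS K).par e =
          if (S.eqE K e : ℕ) = S.nLk K + (S.nS * 3 + 3) then 1 else 0 := by
        rcases e with c | ⟨ρ, m⟩ | u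
        · have := link_lt (K := K) c
          rw [if_neg (by omega)]
          rfl
        · have h1 : (m : ℕ) + 3 * ρ < S.nS * 3 := (finProdFinEquiv (ρ, m)).2
          rw [eqE_fin, if_neg (by omega)]
          rfl
        · simp [eqE_un, xsys]
      rw [h1]
      by_cases h2 : r.val + 1 = k <;> simp [h2]
  pos := by
    have : 0 < S.nEq K * k := Nat.mul_pos (by unfold nEq; omega) hk
    exact Nat.lt_add_left _ this

end SData

/-- the numeric parity system of Horn data -/
def hsys (D : HData) (k : ℕ) : NSys := (toS D).nsys (k + 1) k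

/-- **The graphs of Horn data**, with a number of vertices polynomial in the dimension. -/
theorem graphs (D : HData) (hD : D.Ok) {k : ℕ} (hk : 2 * D.h ≤ k) {n : ℕ}
    (hn : (hsys D k).nTot ≤ n) :
    ∃ G H : SimpleGraph (Fin n), inputWord G H = (hsys D k).bitsN false n ++ (hsys D k).bitsN true n ∧
      (WLEquiv k G H ↔ ¬ D.NDer 1 fun _ => 0) := by
  have hh := hD.hh
  obtain ⟨m, rfl⟩ := Nat.exists_eq_add_of_le hn
  let R := SData.pres (k + 1) (toS_ok hD) (modRows hD.hh hk) (by omega) fun _ => rfl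
  refine ⟨R.numGraph false _, R.numGraph true _, ?_, ?_⟩
  · rw [inputWord, R.adjBits_numGraph, R.adjBits_numGraph]
    rfl
  · refine (R.wlEquiv_numGraph (by omega) m).trans ?_
    rw [← der_iff hD]
    exact SData.wl_iff (toS_ok hD) (k + 1) (by omega) le_rfl _ _ (SData.slots_vars _ _ _)
      (fun _ => rfl) (fun _ => rfl) R.cntN_ok

end Vale.Agent.N310X
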