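import Vale.Agent.N310X.XSys
import Vale.Agent.P310.H302.Dup
import Vale.Agent.P310.H630.Spoiler

/-!
# P310: the parity system of bounded arity which belongs to a cross system
-/

namespace Vale.Agent.N310X

open Finset Vale.Agent.P310

/-- variables: `v(ξ, r, a)`; `s(e, r)` (index `0`) and the partial sums `σ(e, r)` (index `1`) -/
abbrev PV (Q Ξ E : Type) (k : ℕ) := (Ξ × Fin k × Q) ⊕ (E × Fin k × Fin 2)

/-- constraints: row constraints and chain constraints -/
abbrev PC (Q E : Type) (k : ℕ) := (E × Fin k × Q) ⊕ (E × Fin k)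

section game

variable {V C Sl : Type} [Fintype V] [Fintype C] [Fintype Sl] [DecidableEq V] [DecidableEq C]
  [DecidableEq Sl] {S : SlotSys V C Sl} {p p' : C → ZMod 2} {cnt : V ⊕ C → ℕ} {L k : ℕ}

omit [Fintype V] [Fintype C] [Fintype Sl] [DecidableEq V] [DecidableEq C] [DecidableEq Sl] in
theorem ok_zero (hp : ∀ c, p c = 0) (c : C) : S.Ok p c (fun _ => 0) := by
  unfold SlotSys.Ok
  rw [sum_const_zero, hp]

omit [Fintype V] [Fintype C] [Fintype Sl] [DecidableEq V] [DecidableEq C] [DecidableEq Sl] in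
theorem inc_zero (hp : ∀ c, p c = 0) {c : C} {v : V} (hv : v ∈ S.vars c) :
    S.Inc p v 0 c (fun _ => 0) := by
  rw [S.sp_inc_iff]
  refine ⟨ok_zero hp c, hv, ?_⟩
  unfold SlotSys.spVal
  exact sum_const_zero

theorem toCon (hk : 2 ≤ k) (hc : CntOk V C Sl cnt L) (hp : ∀ c, p c = 0) {g : Fin k → V}
    {s : Fin k → ZMod 2}
    (h : S.Rel p p' cnt L k (fun r => .inl (g r, 0)) fun r => .inl (g r, s r)) (c : Fin k → C)
    (hg : ∀ r, g r ∈ S.vars (c r)) :
    ∃ α : Fin k → Sl → ZMod 2,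
      S.Rel p p' cnt L k (fun r => .inr (c r, fun _ => 0)) (fun r => .inr (c r, α r)) ∧
        ∀ r, S.Ok p' (c r) (α r) ∧ S.spVal (c r) (α r) (g r) = s r := by
  obtain ⟨u', h1, h2⟩ := SlotSys.Rel.replace hk hc h (fun r => .inr (c r, fun _ => 0))
    fun r => ok_zero hp (c r)
  choose α hα using fun r => sp_eq_inr_of_item (h2 r).2.1
  obtain rfl : u' = fun r => .inr (c r, α r) := funext hα
  refine ⟨α, h1, fun r => ⟨(h2 r).1, ?_⟩⟩
  have h3 : S.Inc p' (g r) (s r) (c r) (α r) := (h2 r).2.2.1 (inc_zero hp (hg r))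
  exact ((S.sp_inc_iff _ _ _ _ _).1 h3).2.2

theorem toVar (hk : 2 ≤ k) (hc : CntOk V C Sl cnt L) (hp : ∀ c, p c = 0) {c : Fin k → C}
    {α : Fin k → Sl → ZMod 2}
    (h : S.Rel p p' cnt L k (fun r => .inr (c r, fun _ => 0)) fun r => .inr (c r, α r))
    (g : Fin k → V) (hg : ∀ r, g r ∈ S.vars (c r)) :
    S.Rel p p' cnt L k (fun r => .inl (g r, 0))
      fun r => .inl (g r, S.spVal (c r) (α r) (g r)) := by
  obtain ⟨u', h1, h2⟩ := SlotSys.Rel.replace hk hc h (fun r => .inl (g r, 0)) fun r => trivial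
  choose s hs using fun r => sp_eq_inl_of_item (h2 r).2.1
  obtain rfl : u' = fun r => .inl (g r, s r) := funext hs
  have h3 : ∀ r, S.spVal (c r) (α r) (g r) = s r := fun r => by
    have h3 : S.Inc p' (g r) (s r) (c r) (α r) := (h2 r).2.2.1 (inc_zero hp (hg r))
    exact ((S.sp_inc_iff _ _ _ _ _).1 h3).2.2
  simpa only [h3] using h1

theorem share (hk : 2 ≤ k) (hc : CntOk V C Sl cnt L) (hp : ∀ c, p c = 0) {c : Fin k → C}
    {α : Fin k → Sl → ZMod 2}
    (h : S.Rel p p' cnt L k (fun r => .inr (c r, fun _ => 0)) fun r => .inr (c r, α r))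
    {i j : Fin k} {v : V} (hi : v ∈ S.vars (c i)) (hj : v ∈ S.vars (c j)) :
    S.spVal (c i) (α i) v = S.spVal (c j) (α j) v := by
  obtain ⟨u', -, h2, -, h4⟩ := SlotSys.Rel.forth hk hc h (u := .inl (v, 0)) trivial
  obtain ⟨s, rfl⟩ := sp_eq_inl_of_item h2
  have h5 : S.Inc p' v s (c i) (α i) := (h4 i).1 (inc_zero hp hi)
  have h6 : S.Inc p' v s (c j) (α j) := (h4 j).1 (inc_zero hp hj)
  exact ((S.sp_inc_iff _ _ _ _ _).1 h5).2.2.trans ((S.sp_inc_iff _ _ _ _ _).1 h6).2.2.symm

end game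

namespace XSys

variable {Q Ξ W E : Type} [AddCommGroup W] [Module (ZMod 2) W] {h k : ℕ} (X : XSys Q Ξ W E h)
  (P : Rows k h) [DecidableEq (PV Q Ξ E k)]

/-- the variables of the constraints -/
noncomputable def pvars : PC Q E k → Finset (PV Q Ξ E k)
  | .inl (e, r, a) => insert (.inr (e, r, 0))
      ((X.kinds e).image fun ξ => .inl (ξ, r, X.sym e ξ (P.π r) a))
  | .inr (e, r) => insert (.inr (e, r, 0))
      ((if 0 < r.val then {.inr (e, r, 1)} else ∅) ∪
        if h : r.val + 1 < k then {.inr (e, ⟨r.val + 1, h⟩, 1)} else ∅)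

/-- the right hand sides of the second graph -/
def ppar : PC Q E k → ZMod 2
  | .inl _ => 0
  | .inr (e, r) => if r.val + 1 = k then X.par e else 0

theorem sum_row (e : E) (r : Fin k) (a : Q) (f : PV Q Ξ E k → ZMod 2) :
    ∑ v ∈ X.pvars P (.inl (e, r, a)), f v =
      f (.inr (e, r, 0)) + ∑ ξ ∈ X.kinds e, f (.inl (ξ, r, X.sym e ξ (P.π r) a)) := by
  rw [pvars, sum_insert (by simp), sum_image]
  intro ξ _ ξ' _ h
  exact congrArg Prod.fst (Sum.inl.inj h)

theorem sum_chain (e : E) (r : Fin k) (f : PV Q Ξ E k → ZMod 2) :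
    ∑ v ∈ X.pvars P (.inr (e, r)), f v = f (.inr (e, r, 0)) +
      ((if 0 < r.val then f (.inr (e, r, 1)) else 0) +
        if h : r.val + 1 < k then f (.inr (e, ⟨r.val + 1, h⟩, 1)) else 0) := by
  rw [pvars, sum_insert, sum_union]
  · congr 2
    · split_ifs <;> simp
    · split_ifs <;> simp
  · split_ifs <;> simp [Fin.ext_iff]
  · split_ifs <;> simp

variable [Inhabited Q]

/-- the assignment of a parameter -/
noncomputable def asg (p : Par Q Ξ W k) : PV Q Ξ E k → ZMod 2
  | .inl (ξ, r, a) => X.Vl ξ r a p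
  | .inr (e, r, i) => if i = 0 then X.Sv P e r p else ∑ r' ∈ univ.filter (· < r), X.Sv P e r' p

/-- the item which Duplicator sees -/
def itm : PV Q Ξ E k ⊕ PC Q E k → It Q Ξ E k
  | .inl (.inl (ξ, r, a)) => .var ξ r a
  | .inl (.inr (e, _, _)) => .cross e
  | .inr (.inl (e, r, a)) => .rule e r a
  | .inr (.inr (e, _)) => .cross e

variable {X P} {Kn : Ξ → (Fin h → Q) → ZMod 2 → Prop} {Sl : Type}

omit [DecidableEq (PV Q Ξ E k)] in
theorem asg_cross {Y : Finset (It Q Ξ E k)} {p q : Par Q Ξ W k} (hq : q ∈ X.Fix P Y) {e : E}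
    (he : It.cross e ∈ Y) (r : Fin k) (i : Fin 2) :
    X.asg P (p + q) (.inr (e, r, i)) = X.asg P p (.inr (e, r, i)) := by
  simp only [asg, map_add, hq.2 e _ he, add_zero]

/-- **Duplicator.** -/
theorem duplicator [Fintype Ξ] (hX : X.Ok k Kn) (hk : 0 < k)
    (S : SlotSys (PV Q Ξ E k) (PC Q E k) Sl) (hS : ∀ c, S.vars c = X.pvars P c)
    {p p' : PC Q E k → ZMod 2} (hp : ∀ c, p c = 0) (hp' : ∀ c, p' c = X.ppar c)
    (cnt : PV Q Ξ E k ⊕ PC Q E k → ℕ) (L : ℕ) [Fintype (CfiV (PV Q Ξ E k) (PC Q E k) Sl L)] :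
    WLEquiv k (S.graph p cnt L) (S.graph p' cnt L) := by
  classical
  refine SlotSys.wlEquiv_of_good S k p p' cnt L
    (fun Y a => ∃ u, a = X.asg P u ∧ X.Good P Kn (Y.image itm) u) ?_ ?_ ?_ ?_
  · rintro Y Y' a ⟨u, h1, h2⟩ hY
    exact ⟨u, h1, h2.mono (image_subset_image hY)⟩
  · rintro Y a c ⟨u, rfl, h2⟩ hc
    rw [hp, hp', zero_add, hS]
    rcases c with ⟨e, r, a⟩ | ⟨e, r⟩
    · rw [sum_row]
      simp only [asg, if_true, ppar]
      rw [← Sv_eq hX]
      exact CharTwo.add_self_eq_zero _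
    · have h3 := h2.2 e (Or.inl (mem_image_of_mem itm hc))
      rw [sum_chain]
      have h4 : (if 0 < r.val then X.asg P u (.inr (e, r, 1)) else 0) =
          ∑ r' ∈ univ.filter (· < r), X.Sv P e r' u := by
        split_ifs with h0
        · simp [asg]
        · rw [sum_eq_zero]
          intro r' hr'
          have := (mem_filter.1 hr').2
          rw [Fin.lt_def] at this
          omega
      have h5 : X.asg P u (.inr (e, r, 0)) = X.Sv P e r u := by simp [asg]
      rw [h4, h5, ← add_assoc, ← sum_insert (s := univ.filter (· < r)) (a := r)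
        (f := fun r' => X.Sv P e r' u) (by simp)]
      by_cases h6 : r.val + 1 < k
      · rw [dif_pos h6, ppar, if_neg h6.ne]
        have h7 : insert r (univ.filter (· < r)) = univ.filter (· < (⟨r.val + 1, h6⟩ : Fin k)) := by
          ext r'
          simp only [mem_insert, mem_filter, mem_univ, true_and, Fin.lt_def, Fin.ext_iff]
          omega
        rw [h7]
        simp only [asg, one_ne_zero, if_false]
        exact CharTwo.add_self_eq_zero _
      · have h7 : insert r (univ.filter (· < r)) = univ := by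
          ext r'
          have := r'.2
          simp only [mem_insert, mem_filter, mem_univ, true_and, Fin.lt_def, Fin.ext_iff, iff_true]
          omega
        have := r.2
        rw [dif_neg h6, ppar, if_pos (by omega), add_zero, h7, ← ES_apply, h3]
  · exact ⟨_, 0, rfl, by simpa using good_empty hk _⟩
  · rintro Y a hY ⟨u, rfl, h2⟩ x
    obtain ⟨q, hq, h3⟩ := forth hX (card_image_le.trans hY) h2 (itm x)
    refine ⟨_, fun y hy v hv => ?_, u + q, rfl, by rwa [image_insert]⟩
    have hy' := mem_image_of_mem itm hy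
    rcases y with (⟨ξ, r, a⟩ | ⟨e, r, i⟩) | (⟨e, r, a⟩ | ⟨e, r⟩)
    · obtain rfl := mem_singleton.1 hv
      simp only [asg, map_add]
      rw [hq.1 ξ r a ⟨_, hy', rfl, mem_singleton_self _, rfl⟩, add_zero]
    · obtain rfl := mem_singleton.1 hv
      exact asg_cross hq hy' r i
    · change v ∈ S.vars _ at hv
      rw [hS, pvars, mem_insert, mem_image] at hv
      rcases hv with rfl | ⟨ξ, hξ, rfl⟩
      · simp only [asg, map_add, if_true]
        rw [Sv_fix hX hq hy', add_zero]
      · simp only [asg, map_add]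
        rw [hq.1 ξ r (X.sym e ξ (P.π r) a) ⟨_, hy', rfl, hξ, rfl⟩, add_zero]
    · change v ∈ S.vars _ at hv
      rw [hS, pvars, mem_insert, mem_union] at hv
      rcases hv with rfl | hv | hv
      · exact asg_cross hq hy' _ _
      · split_ifs at hv
        · obtain rfl := mem_singleton.1 hv
          exact asg_cross hq hy' _ _
        · exact absurd hv (notMem_empty _)
      · split_ifs at hv
        · obtain rfl := mem_singleton.1 hv
          exact asg_cross hq hy' _ _
        · exact absurd hv (notMem_empty _)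

omit [Inhabited Q] in
/-- **Spoiler.** If the graphs are equivalent then some closed family of sums is consistent. -/
theorem spoiler [Fintype (PV Q Ξ E k)] [Fintype (PC Q E k)] [DecidableEq (PC Q E k)] [Fintype Sl]
    [DecidableEq Sl] (hk : 2 ≤ k) (S : SlotSys (PV Q Ξ E k) (PC Q E k) Sl)
    (hS : ∀ c, S.vars c = X.pvars P c) {p p' : PC Q E k → ZMod 2} (hp : ∀ c, p c = 0)
    (hp' : ∀ c, p' c = X.ppar c) {cnt : PV Q Ξ E k ⊕ PC Q E k → ℕ} {L : ℕ}
    (hc : CntOk (PV Q Ξ E k) (PC Q E k) Sl cnt L)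
    (hWL : WLEquiv k (S.graph p cnt L) (S.graph p' cnt L)) :
    ∃ Kn : Ξ → (Fin h → Q) → ZMod 2 → Prop, X.Closed Kn ∧
      ∀ ξ y c c', Kn ξ y c → Kn ξ y c' → c = c' := by
  classical
  let Ev : (Fin k → PV Q Ξ E k) → ZMod 2 → Prop := fun g c => ∀ s : Fin k → ZMod 2,
    S.Rel p p' cnt L k (fun r => .inl (g r, 0)) (fun r => .inl (g r, s r)) → ∑ r, s r = c
  have hslack : ∀ e, Ev (fun r => .inr (e, r, 0)) (X.par e) := by
    intro e s hs
    obtain ⟨α, h1, h2⟩ := toCon hk hc hp hs (fun r => .inr (e, r)) fun r => by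
      rw [hS, pvars]
      exact mem_insert_self _ _
    let σ : ℕ → ZMod 2 := fun n => if h : 0 < n ∧ n < k then
      S.spVal (.inr (e, ⟨n, h.2⟩)) (α ⟨n, h.2⟩) (.inr (e, ⟨n, h.2⟩, 1)) else
        if n = 0 then 0 else X.par e
    have h3 : ∀ r : Fin k, s r = σ (r.val + 1) - σ r.val := by
      intro r
      have h4 := (S.sp_ok_iff p' _ _).1 (h2 r).1
      rw [hS, sum_chain, (h2 r).2, hp', ppar] at h4
      have h5 : (if 0 < r.val then S.spVal (.inr (e, r)) (α r) (.inr (e, r, 1)) else 0) =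
          σ r.val := by
        by_cases h0 : 0 < r.val
        · simp only [σ, if_pos h0, dif_pos (And.intro h0 r.2)]
        · have h0' : r.val = 0 := by omega
          simp only [σ, if_neg h0, dif_neg (fun h : 0 < r.val ∧ r.val < k => h0 h.1), if_pos h0']
      rw [h5] at h4
      by_cases h6 : r.val + 1 < k
      · rw [dif_pos h6, if_neg h6.ne] at h4
        have h7 : σ (r.val + 1) = S.spVal (.inr (e, r)) (α r) (.inr (e, ⟨r.val + 1, h6⟩, 1)) := by
          simp only [σ, dif_pos (And.intro (Nat.succ_pos r.val) h6)]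
          refine share hk hc hp h1 (i := ⟨r.val + 1, h6⟩) (j := r) ?_ ?_
          · simp [hS, pvars]
          · simp [hS, pvars, h6]
        rw [← h7] at h4
        revert h4
        generalize s r = a
        generalize σ r.val = b
        generalize σ (r.val + 1) = c
        revert a b c
        decide
      · have := r.2
        rw [dif_neg h6, if_pos (by omega), add_zero] at h4
        have h7 : σ (r.val + 1) = X.par e := by
          simp only [σ, dif_neg (fun h : 0 < r.val + 1 ∧ r.val + 1 < k => h6 h.2),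
            if_neg (Nat.succ_ne_zero _)]
        rw [h7, ← h4, add_sub_cancel_right]
    rw [sum_congr rfl fun r _ => h3 r, Fin.sum_univ_eq_sum_range (fun n => σ (n + 1) - σ n) k,
      sum_range_sub]
    have h4 : k ≠ 0 := by omega
    simp [σ, h4]
  refine ⟨fun ξ y c => Ev (fun r => .inl (ξ, r, y (P.π r))) c, ?_, ?_⟩
  · intro e x ξ0 h0 val hval s hs
    have hm : ∀ ξ ∈ X.kinds e, ∀ r, (.inl (ξ, r, X.adr e ξ x (P.π r)) : PV Q Ξ E k) ∈
        S.vars (.inl (e, r, x (P.π r))) := fun ξ hξ r => by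
      rw [hS, pvars]
      exact mem_insert_of_mem (mem_image_of_mem _ hξ)
    obtain ⟨α, h1, h2⟩ := toCon hk hc hp hs (fun r => .inl (e, r, x (P.π r))) (hm ξ0 h0)
    have h3 := hslack e _ (toVar hk hc hp h1 (fun r => .inr (e, r, 0)) fun r => by
      rw [hS, pvars]
      exact mem_insert_self _ _)
    have h4 : ∀ ξ ∈ (X.kinds e).erase ξ0, ∑ r, S.spVal (.inl (e, r, x (P.π r))) (α r)
        (.inl (ξ, r, X.adr e ξ x (P.π r))) = val ξ := fun ξ hξ =>
      hval ξ (mem_erase.1 hξ).2 (mem_erase.1 hξ).1 _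
        (toVar hk hc hp h1 _ (hm ξ (mem_erase.1 hξ).2))
    rw [← h3, ← sum_congr rfl h4, sum_comm, ← sum_add_distrib]
    refine sum_congr rfl fun r _ => ?_
    have h5 := (S.sp_ok_iff p' _ _).1 (h2 r).1
    rw [hS, sum_row, hp', ppar, ← add_sum_erase _ _ h0] at h5
    rw [← (h2 r).2]
    simp only [adr] at h5 ⊢
    revert h5
    generalize S.spVal _ (α r) (.inr (e, r, 0)) = a
    generalize S.spVal _ (α r) (.inl (ξ0, _)) = b
    generalize ∑ ξ ∈ (X.kinds e).erase ξ0, S.spVal _ (α r) _ = c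
    revert a b c
    decide
  · intro ξ y c c' h1 h2
    obtain ⟨x', hx'⟩ := SlotSys.Rel.total hk hc hWL
      (fun r => .inl (.inl (ξ, r, y (P.π r)), 0)) fun r => trivial
    choose s hs using fun r => sp_eq_inl_of_item (SlotSys.Rel.live hk hc hx' r trivial).2
    obtain rfl : x' = fun r => .inl (.inl (ξ, r, y (P.π r)), s r) := funext hs
    exact (h1 s hx').symm.trans (h2 s hx')

end XSys

end Vale.Agent.N310X
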