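import Vale.Agent.N310X.Phys

/-!
# P310: simple Horn systems and their cross systems
-/

namespace Vale.Agent.N310X

open Finset Vale.Agent.P310

/-- simple rule: two premise types, conclusion type, a digit `j`, and symbols `a`, `a'`; the digit
`j` must be `a` and becomes `a'`, all other digits are kept -/
abbrev SRule := ℕ × ℕ × ℕ × ℕ × ℕ × ℕ

/-- simple Horn data -/
structure SData where
  /-- number of symbols -/
  b : ℕ
  /-- number of digits -/
  h : ℕ
  /-- number of types -/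
  nT : ℕ
  /-- the rules -/
  rules : List SRule

/-- set one digit -/
def setd {h : ℕ} (x : Fin h → ℕ) (j a : ℕ) : Fin h → ℕ := fun i => if (i : ℕ) = j then a else x i

namespace SData

/-- derivable facts -/
inductive Der (S : SData) : ℕ → (Fin S.h → ℕ) → Prop
  | base : Der S 0 fun _ => 0
  | step (R : SRule) (hR : R ∈ S.rules) (x : Fin S.h → ℕ)
      (h1 : Der S R.1 (setd x R.2.2.2.1 R.2.2.2.2.1))
      (h2 : Der S R.2.1 (setd x R.2.2.2.1 R.2.2.2.2.1)) :
      Der S R.2.2.1 (setd x R.2.2.2.1 R.2.2.2.2.2)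

/-- well-formed data -/
structure Ok (S : SData) : Prop where
  hb : 0 < S.b
  hT : 2 ≤ S.nT
  lt : ∀ R ∈ S.rules, R.1 < S.nT ∧ R.2.1 < S.nT ∧ R.2.2.1 < S.nT ∧ R.2.2.2.2.1 < S.b ∧
    R.2.2.2.2.2 < S.b
  ne : ∀ R ∈ S.rules, R.1 ≠ 1 ∧ R.2.1 ≠ 1 ∧ R.2.2.1 ≠ 0
  rev : ∀ R ∈ S.rules, R.1 = R.2.1 ∨ (R.2.2.1 ≠ 1 ∧
    ∀ x, S.Der R.2.2.1 (setd x R.2.2.2.1 R.2.2.2.2.2) →
      S.Der R.1 (setd x R.2.2.2.1 R.2.2.2.2.1) ∧ S.Der R.2.1 (setd x R.2.2.2.1 R.2.2.2.2.1))
  goal : ∀ y, S.Der 1 y → y = fun _ => 0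

variable (S : SData)

/-- number of rules -/
abbrev nS : ℕ := S.rules.length

/-- rule number `ρ` -/
def rule (ρ : ℕ) : SRule := S.rules.getD ρ (0, 0, 0, 0, 0, 0)

theorem rule_mem (ρ : Fin S.nS) : S.rule ρ ∈ S.rules := by
  rw [rule, List.getD_eq_getElem _ _ ρ.2]
  exact List.getElem_mem _

/-- premise number `i` -/
def prem (ρ i : ℕ) : ℕ := if i = 0 then (S.rule ρ).1 else (S.rule ρ).2.1

/-- types: the types of `S`, and two chains of length `K + 1` for every rule -/
abbrev Ty (K : ℕ) := Fin S.nT ⊕ (Fin S.nS × Fin 2 × Fin (K + 1))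

/-- kinds -/
abbrev Kd (K : ℕ) := S.Ty K × Fin 3

/-- equations: links of the chains, the rules, start and goal -/
abbrev Eqn (K : ℕ) := (Fin S.nS × Fin 2 × Fin (K + 1) × Fin 3) ⊕ (Fin S.nS × Fin 3) ⊕ Fin 4

variable {S} (hS : S.Ok) (K : ℕ)

/-- a type of `S` -/
def hub (c : ℕ) : S.Ty K := .inl ⟨c % S.nT, Nat.mod_lt _ (by have := hS.hT; omega)⟩

/-- a symbol -/
def smb (a : ℕ) : Fin S.b := ⟨a % S.b, Nat.mod_lt _ hS.hb⟩

/-- the previous type in a chain -/
def prev (ρ : Fin S.nS) (i : Fin 2) (t : Fin (K + 1)) : S.Ty K :=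
  if t.val = 0 then hub hS K (S.prem ρ i) else .inr (ρ, i, ⟨t.val - 1, by omega⟩)

/-- the kinds of an equation, as a list -/
def kl : S.Eqn K → List (S.Kd K)
  | .inl (ρ, i, t, m) => [(prev hS K ρ i t, m), (.inr (ρ, i, t), m)]
  | .inr (.inl (ρ, m)) => [(.inr (ρ, 0, Fin.last K), m + 1), (.inr (ρ, 1, Fin.last K), m + 2),
      (hub hS K (S.rule ρ).2.2.1, m)]
  | .inr (.inr u) => [if h : u.val < 3 then (hub hS K 0, ⟨u.val, h⟩) else (hub hS K 1, 0)]

/-- the three coordinates of the even weight code of length three -/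
def cw (m : Fin 3) : (ZMod 2 × ZMod 2) →ₗ[ZMod 2] ZMod 2 :=
  if m = 0 then LinearMap.fst _ _ _ else if m = 1 then LinearMap.snd _ _ _
  else LinearMap.fst _ _ _ + LinearMap.snd _ _ _

/-- the cross system -/
def xsys : XSys (Fin S.b) (S.Kd K) (ZMod 2 × ZMod 2) (S.Eqn K) S.h where
  lam ξ := cw ξ.2
  kinds e := (kl hS K e).toFinset
  keep
    | .inl _ => fun _ => True
    | .inr (.inl (ρ, _)) => fun j => (j : ℕ) ≠ (S.rule ρ).2.2.2.1
    | .inr (.inr _) => fun _ => False
  out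
    | .inr (.inl (ρ, _)) => fun ξ _ =>
        smb hS (if ξ.1.isLeft then (S.rule ρ).2.2.2.2.2 else (S.rule ρ).2.2.2.2.1)
    | _ => fun _ _ => smb hS 0
  par
    | .inr (.inr u) => if u.val = 3 then 1 else 0
    | _ => 0

theorem cw_apply (m : Fin 3) (w : ZMod 2 × ZMod 2) :
    cw m w = if m = 0 then w.1 else if m = 1 then w.2 else w.1 + w.2 := by
  unfold cw
  split_ifs <;> rfl

theorem prev_ne (ρ : Fin S.nS) (i : Fin 2) (t : Fin (K + 1)) :
    prev hS K ρ i t ≠ .inr (ρ, i, t) := by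
  unfold prev
  split_ifs with h
  · simp [hub]
  · simp only [ne_eq, Sum.inr.injEq, Prod.mk.injEq, Fin.ext_iff, true_and]
    omega

theorem kl_nodup (e : S.Eqn K) : (kl hS K e).Nodup := by
  rcases e with ⟨ρ, i, t, m⟩ | ⟨ρ, m⟩ | u
  · simp [kl, prev_ne]
  · simp [kl, hub]
  · simp [kl]

theorem sum_kinds (e : S.Eqn K) (f : S.Kd K → ZMod 2) :
    ∑ ξ ∈ (xsys hS K).kinds e, f ξ = ((kl hS K e).map f).sum :=
  List.sum_toFinset f (kl_nodup hS K e)

theorem mem_kinds {e : S.Eqn K} {ξ : S.Kd K} : ξ ∈ (xsys hS K).kinds e ↔ ξ ∈ kl hS K e :=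
  List.mem_toFinset

theorem card_kinds (e : S.Eqn K) : ((xsys hS K).kinds e).card = (kl hS K e).length :=
  List.toFinset_card_of_nodup (kl_nodup hS K e)

/-- the equation which consumes a kind of a chain -/
def cons (ρ : Fin S.nS) (i : Fin 2) (t : Fin (K + 1)) (m : Fin 3) : S.Eqn K :=
  if h : t.val < K then .inl (ρ, i, ⟨t.val + 1, by omega⟩, m)
  else .inr (.inl (ρ, if i = 0 then m + 2 else m + 1))

theorem priv_mem {ρ : Fin S.nS} {i : Fin 2} {t : Fin (K + 1)} {m : Fin 3} {e : S.Eqn K} :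
    ((.inr (ρ, i, t), m) : S.Kd K) ∈ kl hS K e ↔ e = .inl (ρ, i, t, m) ∨ e = cons K ρ i t m := by
  have := t.2
  rcases e with ⟨ρ', i', t', m'⟩ | ⟨ρ', m'⟩ | u
  · have := t'.2
    simp only [kl, cons, prev, List.mem_cons, List.not_mem_nil, or_false]
    split_ifs <;> simp only [hub, Prod.mk.injEq, Sum.inr.injEq, Sum.inl.injEq, reduceCtorEq,
      false_and, false_or, or_false, Fin.ext_iff] <;> omega
  · have h1 : ∀ m m' : Fin 3, (m = m' + 1 ↔ m' = m + 2) ∧ (m = m' + 2 ↔ m' = m + 1) := by decide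
    have h2 : t = Fin.last K ↔ ¬ t.val < K := by
      rw [Fin.ext_iff, Fin.val_last]
      omega
    simp only [kl, cons]
    by_cases h3 : t.val < K
    · simp [hub, h2, h3]
    · fin_cases i <;> simp [hub, h2, h3, h1 m m', eq_comm (a := ρ)]
  · simp only [kl, cons]
    split_ifs <;> simp [hub]

theorem cons_ne (ρ : Fin S.nS) (i : Fin 2) (t : Fin (K + 1)) (m : Fin 3) :
    (.inl (ρ, i, t, m) : S.Eqn K) ≠ cons K ρ i t m := by
  unfold cons
  split_ifs <;> simp [Fin.ext_iff]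

theorem both_mem (hK : 0 < K) {ρ : Fin S.nS} {i : Fin 2} {t : Fin (K + 1)} {m : Fin 3}
    {ξ : S.Kd K} (h1 : ξ ∈ kl hS K (.inl (ρ, i, t, m))) (h2 : ξ ∈ kl hS K (cons K ρ i t m)) :
    ξ = (.inr (ρ, i, t), m) := by
  have := t.2
  simp only [kl, List.mem_cons, List.not_mem_nil, or_false] at h1
  rcases h1 with rfl | h1
  · exfalso
    revert h2
    unfold cons
    split_ifs <;> simp only [kl, prev, List.mem_cons, List.not_mem_nil, or_false] <;>
      split_ifs <;> simp only [hub, Prod.mk.injEq, Sum.inr.injEq, Sum.inl.injEq, reduceCtorEq,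
        false_and, false_or, or_false, Fin.ext_iff, Fin.val_last, imp_false, not_false_eq_true,
        or_self] <;> first | omega | contradiction
  · exact h1

theorem one_priv {e : S.Eqn K} {ξ ξ' : S.Kd K} (hne : ξ ≠ ξ') (h1 : ξ ∈ kl hS K e)
    (h2 : ξ' ∈ kl hS K e) : (∃ c m, ξ = (.inr c, m)) ∨ ∃ c m, ξ' = (.inr c, m) := by
  rcases e with ⟨ρ, i, t, m⟩ | ⟨ρ, m⟩ | u <;>
    simp only [kl, List.mem_cons, List.not_mem_nil, or_false] at h1 h2
  · rcases h1 with rfl | rfl
    · rcases h2 with rfl | rfl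
      · exact absurd rfl hne
      · exact Or.inr ⟨_, _, rfl⟩
    · exact Or.inl ⟨_, _, rfl⟩
  · rcases h1 with rfl | rfl | rfl
    · exact Or.inl ⟨_, _, rfl⟩
    · exact Or.inl ⟨_, _, rfl⟩
    · rcases h2 with rfl | rfl | rfl
      · exact Or.inr ⟨_, _, rfl⟩
      · exact Or.inr ⟨_, _, rfl⟩
      · exact absurd rfl hne
  · exact absurd (h1.trans h2.symm) hne

theorem inter (hK : 0 < K) (e e' : S.Eqn K) (ξ ξ' : S.Kd K) (hne : ξ ≠ ξ')
    (h1 : ξ ∈ kl hS K e) (h2 : ξ' ∈ kl hS K e) (h3 : ξ ∈ kl hS K e') (h4 : ξ' ∈ kl hS K e') :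
    e = e' := by
  wlog h : ∃ c m, ξ = (.inr c, m) generalizing ξ ξ'
  · exact this ξ' ξ hne.symm h2 h1 h4 h3 ((one_priv hS K hne h1 h2).resolve_left h)
  obtain ⟨⟨ρ, i, t⟩, m, rfl⟩ := h
  rcases (priv_mem hS K).1 h1 with rfl | rfl <;> rcases (priv_mem hS K).1 h3 with rfl | rfl
  · rfl
  · exact absurd (both_mem hS K hK h2 h4).symm hne
  · exact absurd (both_mem hS K hK h4 h2).symm hne
  · rfl

theorem indep (A : Finset (S.Eqn K)) (hA : A.Nonempty) (hc : A.card ≤ K) :
    ∃ β : S.Kd K → ZMod 2, ∑ e ∈ A, ∑ ξ ∈ (xsys hS K).kinds e, β ξ ≠ 0 := by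
  classical
  by_contra hn
  push Not at hn
  have h1 : ∀ ξ : S.Kd K, ∑ e ∈ A, (if ξ ∈ kl hS K e then (1 : ZMod 2) else 0) = 0 := fun ξ => by
    refine Eq.trans ?_ (hn (Pi.single ξ 1))
    exact sum_congr rfl fun e _ => by simp only [XSys.sum_single, mem_kinds]
  have h2 : ∀ ρ i t m, (.inl (ρ, i, t, m) : S.Eqn K) ∈ A ↔ cons K ρ i t m ∈ A := by
    intro ρ i t m
    have h3 := h1 (.inr (ρ, i, t), m)
    have h4 : ∀ e : S.Eqn K, (if ((.inr (ρ, i, t), m) : S.Kd K) ∈ kl hS K e then (1 : ZMod 2)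
        else 0) = (if e = .inl (ρ, i, t, m) then 1 else 0) + if e = cons K ρ i t m then 1 else 0 := by
      intro e
      have := cons_ne K ρ i t m
      by_cases a : e = .inl (ρ, i, t, m) <;> by_cases b : e = cons K ρ i t m
      · exact absurd (a.symm.trans b) this
      · rw [if_pos ((priv_mem hS K).2 (Or.inl a)), if_pos a, if_neg b, add_zero]
      · rw [if_pos ((priv_mem hS K).2 (Or.inr b)), if_neg a, if_pos b, zero_add]
      · rw [if_neg (fun h => ((priv_mem hS K).1 h).elim a b), if_neg a, if_neg b, add_zero]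
    simp only [h4, sum_add_distrib, sum_ite_eq'] at h3
    by_cases a : (.inl (ρ, i, t, m) : S.Eqn K) ∈ A <;> by_cases b : cons K ρ i t m ∈ A <;>
      simp [a, b] at h3 ⊢
  have h3 : ∀ ρ i m t, (.inl (ρ, i, t, m) : S.Eqn K) ∈ A ↔ (.inl (ρ, i, 0, m) : S.Eqn K) ∈ A := by
    intro ρ i m t
    induction t using Fin.induction with
    | zero => rfl
    | succ t ih =>
      rw [← ih, h2 ρ i t.castSucc, cons, dif_pos (by simp)]
      rfl
  have h4 : ∀ ρ i m t, (.inl (ρ, i, t, m) : S.Eqn K) ∉ A := by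
    intro ρ i m t ht
    have : (univ : Finset (Fin (K + 1))).card ≤ A.card :=
      card_le_card_of_injOn (fun t => .inl (ρ, i, t, m))
        (fun t' _ => (h3 ρ i m t').2 ((h3 ρ i m t).1 ht)) fun a _ b _ h => by simpa using h
    rw [card_univ, Fintype.card_fin] at this
    omega
  have h5 : ∀ ρ m, (.inr (.inl (ρ, m)) : S.Eqn K) ∉ A := by
    intro ρ m hm
    refine h4 ρ 0 (m + 1) (Fin.last K) ((h2 _ _ _ _).2 ?_)
    have : ∀ m : Fin 3, m + 1 + 2 = m := by decide
    rw [cons, dif_neg (by simp), if_pos rfl, this]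
    exact hm
  obtain ⟨e, he⟩ := hA
  rcases e with ⟨ρ, i, t, m⟩ | ⟨ρ, m⟩ | u
  · exact h4 _ _ _ _ he
  · exact h5 _ _ he
  · have h6 := h1 (if h : u.val < 3 then (hub hS K 0, ⟨u.val, h⟩) else (hub hS K 1, 0))
    rw [sum_eq_single_of_mem _ he, if_pos (by simp [kl])] at h6
    · exact one_ne_zero h6
    · rintro (⟨ρ, i, t, m⟩ | ⟨ρ, m⟩ | u') he' hne
      · exact absurd he' (h4 _ _ _ _)
      · exact absurd he' (h5 _ _)
      · refine if_neg ?_
        have hT := hS.hT
        have h7 : (0 : ℕ) % S.nT ≠ 1 % S.nT := by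
          rw [Nat.zero_mod, Nat.mod_eq_of_lt (by omega)]
          omega
        have h8 : u'.val ≠ u.val := fun h => hne (by rw [Fin.ext h])
        have := u.2
        have := u'.2
        simp only [kl, List.mem_singleton]
        split_ifs <;> simp only [hub, Prod.mk.injEq, Sum.inl.injEq, Fin.mk.injEq] <;> omega

/-- derivability for all types -/
def tder : S.Ty K → (Fin S.h → ℕ) → Prop
  | .inl c => S.Der c
  | .inr (ρ, i, _) => S.Der (S.prem ρ i)

/-- the known sums -/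
def Kn (ξ : S.Kd K) (y : Fin S.h → Fin S.b) (val : ZMod 2) : Prop :=
  (tder K ξ.1 (fun j => y j) ∧ val = 0) ∨ (ξ = (hub hS K 1, 0) ∧ (∀ j, (y j : ℕ) = 0) ∧ val = 1)

theorem tder_hub {c : ℕ} (hc : c < S.nT) : tder K (hub hS K c) = S.Der c := by
  simp [tder, hub, Nat.mod_eq_of_lt hc]

theorem hub_inj {c c' : ℕ} (hc : c < S.nT) (hc' : c' < S.nT) (h : hub hS K c = hub hS K c') :
    c = c' := by
  simpa [hub, Nat.mod_eq_of_lt hc, Nat.mod_eq_of_lt hc'] using h

include hS in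
theorem prem_lt (ρ : Fin S.nS) (i : ℕ) : S.prem ρ i < S.nT ∧ S.prem ρ i ≠ 1 := by
  have h1 := hS.lt _ (S.rule_mem ρ)
  have h2 := hS.ne _ (S.rule_mem ρ)
  unfold prem
  split_ifs <;> tauto

theorem tder_prev (ρ : Fin S.nS) (i : Fin 2) (t : Fin (K + 1)) :
    tder K (prev hS K ρ i t) = S.Der (S.prem ρ i) ∧ prev hS K ρ i t ≠ hub hS K 1 := by
  have := hS.hT
  unfold prev
  split_ifs
  · exact ⟨tder_hub hS K (prem_lt hS ρ i).1,
      fun h => (prem_lt hS ρ i).2 (hub_inj hS K (prem_lt hS ρ i).1 (by omega) h)⟩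
  · exact ⟨rfl, by simp [hub]⟩

theorem adr_link (c : Fin S.nS × Fin 2 × Fin (K + 1) × Fin 3) (ξ : S.Kd K)
    (x : Fin S.h → Fin S.b) : (xsys hS K).adr (.inl c) ξ x = x := by
  funext j
  simp [XSys.adr, XSys.sym, xsys]

theorem adr_fin (ρ : Fin S.nS) (m : Fin 3) (ξ : S.Kd K) (x : Fin S.h → Fin S.b) :
    (fun j => ((xsys hS K).adr (.inr (.inl (ρ, m))) ξ x j : ℕ)) = setd (fun j => x j)
      (S.rule ρ).2.2.2.1 (if ξ.1.isLeft then (S.rule ρ).2.2.2.2.2 else (S.rule ρ).2.2.2.2.1) := by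
  have h1 := hS.lt _ (S.rule_mem ρ)
  funext j
  by_cases hj : (j : ℕ) = (S.rule ρ).2.2.2.1
  · simp only [XSys.adr, XSys.sym, xsys, setd, hj, ne_eq, not_true, if_false, if_true, smb]
    split_ifs
    · exact Nat.mod_eq_of_lt h1.2.2.2.2
    · exact Nat.mod_eq_of_lt h1.2.2.2.1
  · simp [XSys.adr, XSys.sym, xsys, setd, hj]

theorem adr_un (u : Fin 4) (ξ : S.Kd K) (x : Fin S.h → Fin S.b) :
    (xsys hS K).adr (.inr (.inr u)) ξ x = fun _ => smb hS 0 := by
  funext j
  simp [XSys.adr, XSys.sym, xsys]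

include hS in
theorem der_zero {y : Fin S.h → ℕ} (h : S.Der 0 y) : y = fun _ => 0 := by
  generalize hc : (0 : ℕ) = c at h
  cases h with
  | base => rfl
  | step R hR x _ _ => exact absurd hc.symm (hS.ne R hR).2.2

theorem closed (hg : ∀ y, ¬ S.Der 1 y) : (xsys hS K).Closed (Kn hS K) := by
  classical
  have hT := hS.hT
  intro e x ξ0 h0 val hval
  simp only [mem_kinds] at h0 hval
  suffices H : ∀ T : Finset (S.Kd K), (∀ ξ ∈ T, ξ ∈ kl hS K e ∧ ξ ≠ ξ0) →
      Kn hS K ξ0 ((xsys hS K).adr e ξ0 x) ((xsys hS K).par e + ∑ ξ ∈ T, val ξ) from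
    H _ fun ξ hξ => by
      simp only [mem_erase, mem_kinds] at hξ
      exact ⟨hξ.2, hξ.1⟩
  intro T hTT
  have hz : (∀ ξ ∈ kl hS K e, ξ ≠ ξ0 → val ξ = 0) → (xsys hS K).par e = 0 →
      tder K ξ0.1 (fun j => (xsys hS K).adr e ξ0 x j) →
      Kn hS K ξ0 ((xsys hS K).adr e ξ0 x) ((xsys hS K).par e + ∑ ξ ∈ T, val ξ) := fun h1 h2 h3 =>
    Or.inl ⟨h3, by
      rw [h2, zero_add]
      exact sum_eq_zero fun ξ hξ => h1 ξ (hTT ξ hξ).1 (hTT ξ hξ).2⟩
  have hpriv : ∀ {c : Fin S.nS × Fin 2 × Fin (K + 1)} {m y v}, Kn hS K (.inr c, m) y v →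
      S.Der (S.prem c.1 c.2.1) (fun j => y j) ∧ v = 0 := fun h =>
    h.elim id fun h => absurd h.1 (by simp [hub])
  rcases e with ⟨ρ, i, t, m⟩ | ⟨ρ, m⟩ | u
  · have h1 : ∀ ξ ∈ kl hS K (.inl (ρ, i, t, m)), tder K ξ.1 = S.Der (S.prem ρ i) ∧
        ξ.1 ≠ hub hS K 1 := by
      intro ξ hξ
      simp only [kl, List.mem_cons, List.not_mem_nil, or_false] at hξ
      rcases hξ with rfl | rfl
      · exact tder_prev hS K ρ i t
      · exact ⟨rfl, by simp [hub]⟩
    have h2 : ∀ ξ ∈ kl hS K (.inl (ρ, i, t, m)), ξ ≠ ξ0 →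
        S.Der (S.prem ρ i) (fun j => x j) ∧ val ξ = 0 := fun ξ hξ hne => by
      rcases hval ξ hξ hne with h | h
      · rwa [(h1 ξ hξ).1, adr_link] at h
      · exact absurd (congrArg Prod.fst h.1) (h1 ξ hξ).2
    refine hz (fun ξ hξ hne => (h2 ξ hξ hne).2) rfl ?_
    rw [(h1 ξ0 h0).1, adr_link]
    by_cases h3 : ξ0 = (prev hS K ρ i t, m)
    · exact (h2 (.inr (ρ, i, t), m) (by simp [kl])
        (by rw [h3]; exact fun h => prev_ne hS K ρ i t (congrArg Prod.fst h).symm)).1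
    · exact (h2 (prev hS K ρ i t, m) (by simp [kl]) (Ne.symm h3)).1
  · have hR := S.rule_mem ρ
    have hlt := hS.lt _ hR
    set y := setd (fun j => (x j : ℕ)) (S.rule ρ).2.2.2.1 (S.rule ρ).2.2.2.2.1 with hy
    have a1 : ((.inr (ρ, 0, Fin.last K), m + 1) : S.Kd K) ≠ ξ0 →
        S.Der (S.rule ρ).1 y ∧ val (.inr (ρ, 0, Fin.last K), m + 1) = 0 := fun hne => by
      have := hpriv (hval _ (by simp [kl]) hne)
      rwa [adr_fin] at this
    have a2 : ((.inr (ρ, 1, Fin.last K), m + 2) : S.Kd K) ≠ ξ0 →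
        S.Der (S.rule ρ).2.1 y ∧ val (.inr (ρ, 1, Fin.last K), m + 2) = 0 := fun hne => by
      have := hpriv (hval _ (by simp [kl]) hne)
      rwa [adr_fin] at this
    have a3 : (hub hS K (S.rule ρ).2.2.1, m) ≠ ξ0 → (S.Der (S.rule ρ).1 y ∨ S.Der (S.rule ρ).2.1 y) →
        (S.Der (S.rule ρ).1 y ∧ S.Der (S.rule ρ).2.1 y) ∧
          val (hub hS K (S.rule ρ).2.2.1, m) = 0 := fun hne hor => by
      have h1 := hval _ (by simp [kl]) hne
      rcases hS.rev _ hR with h2 | ⟨h2, h3⟩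
      · have h4 : S.Der (S.rule ρ).1 y ∧ S.Der (S.rule ρ).2.1 y :=
          hor.elim (fun h => ⟨h, h2 ▸ h⟩) fun h => ⟨h2 ▸ h, h⟩
        refine ⟨h4, h1.elim (fun h => h.2) fun h => ?_⟩
        have h5 := hub_inj hS K hlt.2.2.1 (by omega) (congrArg Prod.fst h.1)
        exact absurd (h5 ▸ Der.step _ hR _ h4.1 h4.2) (hg _)
      · rcases h1 with h | h
        · rw [adr_fin, tder_hub hS K hlt.2.2.1] at h
          exact ⟨h3 _ h.1, h.2⟩
        · exact absurd (hub_inj hS K hlt.2.2.1 (by omega) (congrArg Prod.fst h.1)) h2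
    simp only [kl, List.mem_cons, List.not_mem_nil, or_false] at h0 hz
    rcases h0 with rfl | rfl | rfl
    · have b2 := a2 (by simp)
      have b3 := a3 (by simp [hub]) (Or.inr b2.1)
      refine hz ?_ rfl (by rw [adr_fin]; exact b3.1.1)
      rintro ξ (rfl | rfl | rfl) hne
      exacts [absurd rfl hne, b2.2, b3.2]
    · have b1 := a1 (by simp)
      have b3 := a3 (by simp [hub]) (Or.inl b1.1)
      refine hz ?_ rfl (by rw [adr_fin]; exact b3.1.2)
      rintro ξ (rfl | rfl | rfl) hne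
      exacts [b1.2, absurd rfl hne, b3.2]
    · have b1 := a1 (by simp [hub])
      have b2 := a2 (by simp [hub])
      refine hz ?_ rfl ?_
      · rintro ξ (rfl | rfl | rfl) hne
        exacts [b1.2, b2.2, absurd rfl hne]
      · rw [adr_fin, tder_hub hS K hlt.2.2.1]
        exact Der.step _ hR _ b1.1 b2.1
  · simp only [kl, List.mem_singleton] at h0 hz
    by_cases hu : u.val < 3
    · rw [dif_pos hu] at h0 hz
      refine hz (fun ξ h1 h2 => absurd (h1.trans h0.symm) h2) (if_neg (by omega)) ?_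
      rw [h0, adr_un, tder_hub hS K (by omega)]
      simpa [smb] using Der.base
    · rw [dif_neg hu] at h0
      refine Or.inr ⟨h0, by simp [adr_un, smb], ?_⟩
      rw [sum_eq_zero, add_zero]
      · exact if_pos (by omega)
      · intro ξ hξ
        have := (hTT ξ hξ).1
        simp only [kl, List.mem_singleton, dif_neg hu] at this
        exact absurd (this.trans h0.symm) (hTT ξ hξ).2

theorem ok {k : ℕ} (hK : k + 1 ≤ K) (hg : ∀ y, ¬ S.Der 1 y) : (xsys hS K).Ok k (Kn hS K) where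
  lam_ne ξ := by
    have : ∀ m : Fin 3, ∃ w : ZMod 2 × ZMod 2,
        (if m = 0 then w.1 else if m = 1 then w.2 else w.1 + w.2) = 1 := by decide
    exact (this ξ.2).imp fun w hw => (cw_apply _ _).trans hw
  sum_zero e j hj w := by
    rw [sum_kinds]
    rcases e with ⟨ρ, i, t, m⟩ | ⟨ρ, m⟩ | u
    · simpa [kl, xsys] using CharTwo.add_self_eq_zero (cw m w)
    · simp only [kl, xsys, List.map_cons, List.map_nil, List.sum_cons, List.sum_nil, cw_apply]
      exact (by decide : ∀ (w : ZMod 2 × ZMod 2) (m : Fin 3),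
        (if m + 1 = 0 then w.1 else if m + 1 = 1 then w.2 else w.1 + w.2) +
          ((if m + 2 = 0 then w.1 else if m + 2 = 1 then w.2 else w.1 + w.2) +
            ((if m = 0 then w.1 else if m = 1 then w.2 else w.1 + w.2) + 0)) = 0) w m
    · exact hj.elim
  minimal e D hD hne h := by
    have h1 : ∀ m : Fin 3, ∃ w : ZMod 2 × ZMod 2,
        (if m = 0 then w.1 else if m = 1 then w.2 else w.1 + w.2) ≠ 0 := by decide
    have h2 : ∀ m m' : Fin 3, m ≠ m' → ∃ w : ZMod 2 × ZMod 2,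
        (if m = 0 then w.1 else if m = 1 then w.2 else w.1 + w.2) +
          (if m' = 0 then w.1 else if m' = 1 then w.2 else w.1 + w.2) ≠ 0 := by decide
    rcases XSys.single_or_two hne with ⟨ξ, rfl⟩ | ⟨ξ, a, ξ', b, hab⟩
    · obtain ⟨w, hw⟩ := h1 ξ.2
      have := h w
      rw [sum_singleton] at this
      exact absurd ((cw_apply _ _).symm.trans this) hw
    · have h3 : ({ξ, ξ'} : Finset (S.Kd K)) ⊆ D := by
        intro ζ hζ
        rcases mem_insert.1 hζ with rfl | hζ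
        · exact a
        · exact mem_singleton.1 hζ ▸ b
      have h4 := card_le_card h3
      rw [card_pair hab] at h4
      refine eq_of_subset_of_card_le hD ?_
      by_contra h5
      rw [card_kinds] at h5
      rcases e with ⟨ρ, i, t, m⟩ | ⟨ρ, m⟩ | u
      · exact h5 h4
      · have h6 : D = {ξ, ξ'} := (eq_of_subset_of_card_le h3 (by
          rw [card_pair hab]
          simp only [kl, List.length_cons, List.length_nil] at h5
          omega)).symm
        have h7 : ξ.2 ≠ ξ'.2 := by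
          have c1 := (mem_kinds hS K).1 (hD a)
          have c2 := (mem_kinds hS K).1 (hD b)
          have c3 : ∀ m : Fin 3, m + 1 ≠ m + 2 ∧ m + 1 ≠ m ∧ m + 2 ≠ m := by decide
          have c4 := c3 m
          simp only [kl, List.mem_cons, List.not_mem_nil, or_false] at c1 c2
          rcases c1 with rfl | rfl | rfl <;> rcases c2 with rfl | rfl | rfl <;>
            first | exact absurd rfl hab | (simp only; tauto)
        obtain ⟨w, hw⟩ := h2 _ _ h7
        have := h w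
        rw [h6, sum_pair hab] at this
        exact hw (by rw [← cw_apply, ← cw_apply]; exact this)
      · simp only [kl, List.length_cons, List.length_nil] at h5
        omega
  inter e e' ξ ξ' hne h1 h2 h3 h4 := inter hS K (by omega) e e' ξ ξ' hne ((mem_kinds hS K).1 h1)
    ((mem_kinds hS K).1 h2) ((mem_kinds hS K).1 h3) ((mem_kinds hS K).1 h4)
  unary e ξ he y val hy := by
    have hT := hS.hT
    have h1 := card_kinds hS K e
    have h2 : ξ ∈ kl hS K e := (mem_kinds hS K).1 (he ▸ mem_singleton_self ξ)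
    rw [he, card_singleton] at h1
    rcases e with ⟨ρ, i, t, m⟩ | ⟨ρ, m⟩ | u
    · simp [kl] at h1
    · simp [kl] at h1
    · have h3 : ∀ j, (y j : ℕ) = 0 := by
        rcases hy with h | h
        · simp only [kl, List.mem_singleton] at h2
          split_ifs at h2
          · rw [h2, tder_hub hS K (by omega)] at h
            exact congrFun (der_zero hS h.1)
          · rw [h2, tder_hub hS K (by omega)] at h
            exact absurd h.1 (hg _)
        · exact h.2.1
      funext j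
      exact Fin.ext ((h3 j).trans (Nat.zero_mod _).symm)
  uniq ξ y v v' h1 h2 := by
    have hT := hS.hT
    rcases h1 with h1 | h1 <;> rcases h2 with h2 | h2
    · rw [h1.2, h2.2]
    · rw [h2.1, tder_hub hS K (by omega)] at h1
      exact absurd h1.1 (hg _)
    · rw [h1.1, tder_hub hS K (by omega)] at h2
      exact absurd h2.1 (hg _)
    · rw [h1.2.2, h2.2.2]
  close := closed hS K hg
  indep A hA hc := indep hS K A hA (hc.trans hK)

/-- every closed family contains the derivable facts -/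
theorem kn_of_der {N : S.Kd K → (Fin S.h → Fin S.b) → ZMod 2 → Prop}
    (hN : (xsys hS K).Closed N) {c : ℕ} {y : Fin S.h → ℕ} (h : S.Der c y) :
    ∀ (x : Fin S.h → Fin S.b), (fun j => (x j : ℕ)) = y → ∀ m, N (hub hS K c, m) x 0 := by
  classical
  induction h with
  | base =>
    intro x hx m
    have h1 := hN (.inr (.inr ⟨m.val, by omega⟩)) x (hub hS K 0, m) (by simp [mem_kinds, kl]) 0
      fun ξ h1 h2 => absurd (by simpa [mem_kinds, kl] using h1) h2
    have h2 : x = fun _ => smb hS 0 :=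
      funext fun j => Fin.ext ((congrFun hx j).trans (Nat.zero_mod _).symm)
    have h3 : (m : ℕ) ≠ 3 := by omega
    rw [adr_un, ← h2] at h1
    simpa [xsys, h3] using h1
  | step R hR z _ _ ih1 ih2 =>
    intro x hx m
    obtain ⟨ρ, rfl⟩ : ∃ ρ : Fin S.nS, R = S.rule ρ := by
      obtain ⟨n, hn, rfl⟩ := List.getElem_of_mem hR
      exact ⟨⟨n, hn⟩, (List.getD_eq_getElem _ _ hn).symm⟩
    have hset : ∀ a, setd (fun j => (x j : ℕ)) (S.rule ρ).2.2.2.1 a = setd z (S.rule ρ).2.2.2.1 a := by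
      intro a
      funext j
      have := congrFun hx j
      simp only [setd] at this ⊢
      split_ifs at this ⊢ with h
      · rfl
      · exact this
    have hlane : ∀ (i : Fin 2) (x' : Fin S.h → Fin S.b),
        (∀ m, N (hub hS K (S.prem ρ i), m) x' 0) → ∀ t m, N (.inr (ρ, i, t), m) x' 0 := by
      intro i x' h0 t m
      have key : ∀ t, N (prev hS K ρ i t, m) x' 0 → N (.inr (ρ, i, t), m) x' 0 := fun t ht => by
        have := hN (.inl (ρ, i, t, m)) x' (.inr (ρ, i, t), m) (by simp [mem_kinds, kl]) 0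
          fun ξ h1 h2 => by
            simp only [mem_kinds, kl, List.mem_cons, List.not_mem_nil, or_false] at h1
            rw [adr_link, h1.resolve_right h2]
            exact ht
        rw [adr_link] at this
        simpa [xsys] using this
      induction t using Fin.induction with
      | zero => exact key 0 (h0 m)
      | succ t ih => exact key _ (by rw [prev, if_neg (by simp)]; exact ih)
    have h1 := hN (.inr (.inl (ρ, m))) x (hub hS K (S.rule ρ).2.2.1, m) (by simp [mem_kinds, kl]) 0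
      fun ξ h1 h2 => by
        simp only [mem_kinds, kl, List.mem_cons, List.not_mem_nil, or_false] at h1
        rcases h1 with rfl | rfl | rfl
        · exact hlane 0 _ (ih1 _ (by rw [adr_fin, hset]; rfl)) _ _
        · exact hlane 1 _ (ih2 _ (by rw [adr_fin, hset]; rfl)) _ _
        · exact absurd rfl h2
    have h2 : (xsys hS K).adr (.inr (.inl (ρ, m))) (hub hS K (S.rule ρ).2.2.1, m) x = x := by
      have := adr_fin hS K ρ m (hub hS K (S.rule ρ).2.2.1, m) x
      rw [hset] at this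
      exact funext fun j => Fin.ext ((congrFun this j).trans (congrFun hx j).symm)
    rw [h2] at h1
    simpa [xsys] using h1

/-- **The graphs are equivalent iff the goal is not derivable.** -/
theorem wl_iff {k : ℕ} (hk : 2 ≤ k) (hK : k + 1 ≤ K) (P : Rows k S.h) {Sl : Type} [Fintype Sl]
    [DecidableEq Sl] (T : SlotSys (PV (Fin S.b) (S.Kd K) (S.Eqn K) k) (PC (Fin S.b) (S.Eqn K) k) Sl)
    (hT : ∀ c, T.vars c = (xsys hS K).pvars P c) {p p' : PC (Fin S.b) (S.Eqn K) k → ZMod 2}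
    (hp : ∀ c, p c = 0) (hp' : ∀ c, p' c = (xsys hS K).ppar c) {cnt : _ → ℕ} {L : ℕ}
    (hc : CntOk _ _ Sl cnt L) :
    WLEquiv k (T.graph p cnt L) (T.graph p' cnt L) ↔ ¬ S.Der 1 fun _ => 0 := by
  classical
  constructor
  · intro h hd
    obtain ⟨N, h1, h2⟩ := XSys.spoiler hk T hT hp hp' hc h
    have h3 := kn_of_der hS K h1 hd (fun _ => smb hS 0) (funext fun _ => Nat.zero_mod _) 0
    have h4 := h1 (.inr (.inr 3)) (fun _ => smb hS 0) (hub hS K 1, 0) (by simp [mem_kinds, kl]) 0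
      fun ξ h1 h2 => absurd (by simpa [mem_kinds, kl] using h1) h2
    rw [adr_un] at h4
    have h5 := h2 _ _ _ _ h3 h4
    simp [xsys] at h5
  · intro hd
    have : Inhabited (Fin S.b) := ⟨smb hS 0⟩
    exact XSys.duplicator (ok hS K hK fun y hy => hd (hS.goal y hy ▸ hy)) (by omega) T hT hp hp'
      cnt L

end SData

end Vale.Agent.N310X
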