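import Vale.Agent.P310.H44.Horn

/-!
# P310: cross systems (parity systems with one slack variable per equation and row)

A cross system has kinds of variables `ξ`, one variable `v(ξ, r, a)` for every row `r` and symbol
`a`, and equations `e`.  In row `r` the equation `e` says that the sum of its variables is a slack
variable `s(e, r)` which does not depend on the symbol; the sum of the slack variables over all
rows is prescribed.  The solutions of the row constraints used by Duplicator are the points of `Par`.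
-/

namespace Vale.Agent.N310X

open Finset Vale.Agent.P310

/-- solvability of a linear system over the field with two elements -/
theorem solve {P ι : Type} [AddCommGroup P] [Module (ZMod 2) P] [Fintype ι]
    (K : Submodule (ZMod 2) P) (f : ι → P →ₗ[ZMod 2] ZMod 2) (t : ι → ZMod 2)
    (h : ∀ D : Finset ι, (∀ q ∈ K, ∑ i ∈ D, f i q = 0) → ∑ i ∈ D, t i = 0) :
    ∃ q ∈ K, ∀ i, f i q = t i := by
  classical
  by_contra hc
  have hn : t ∉ K.map (LinearMap.pi f) := by
    rintro ⟨q, hq, e⟩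
    exact hc ⟨q, hq, fun i => congrFun e i⟩
  obtain ⟨φ, h1, h2⟩ := Submodule.exists_dual_map_eq_bot_of_notMem hn inferInstance
  have key : ∀ y : ι → ZMod 2,
      φ y = ∑ i ∈ univ.filter (fun i => φ (Pi.single i 1) = 1), y i := by
    intro y
    rw [LinearMap.pi_apply_eq_sum_univ φ y, sum_filter]
    refine sum_congr rfl fun i _ => ?_
    have e : (fun j => if i = j then (1 : ZMod 2) else 0) = Pi.single i 1 := by
      funext j
      rw [Pi.single_apply]
      simp [eq_comm]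
    rw [e, smul_eq_mul]
    generalize φ (Pi.single i 1) = c
    generalize y i = d
    revert c d
    decide
  apply h1
  rw [key]
  refine h _ fun q hq => ?_
  have h3 : φ (LinearMap.pi f q) = 0 := by
    have : φ (LinearMap.pi f q) ∈ (K.map (LinearMap.pi f)).map φ := ⟨_, ⟨q, hq, rfl⟩, rfl⟩
    rwa [h2, Submodule.mem_bot] at this
  rw [key] at h3
  exact h3

/-- A cross system. -/
structure XSys (Q Ξ W E : Type) [AddCommGroup W] [Module (ZMod 2) W] (h : ℕ) where
  /-- the coordinate of the code which belongs to a kind -/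
  lam : Ξ → W →ₗ[ZMod 2] ZMod 2
  /-- the kinds of an equation -/
  kinds : E → Finset Ξ
  /-- the digits which an equation keeps -/
  keep : E → Fin h → Prop
  /-- the symbols at the other digits -/
  out : E → Ξ → Fin h → Q
  /-- the prescribed sum of the slack variables -/
  par : E → ZMod 2

/-- the items of the game, as seen by Duplicator -/
inductive It (Q Ξ E : Type) (k : ℕ)
  | var (ξ : Ξ) (r : Fin k) (a : Q)
  | rule (e : E) (r : Fin k) (a : Q)
  | cross (e : E)

/-- the row of an item -/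
def It.row {Q Ξ E : Type} {k : ℕ} : It Q Ξ E k → Option (Fin k)
  | .var _ r _ => some r
  | .rule _ r _ => some r
  | .cross _ => none

/-- parameters of the solutions of the row constraints -/
abbrev Par (Q Ξ W : Type) (k : ℕ) := Fin k → (Ξ → ZMod 2) × (Q → W)

namespace XSys

variable {Q Ξ W E : Type} [AddCommGroup W] [Module (ZMod 2) W] {h k : ℕ} (X : XSys Q Ξ W E h)

open Classical in
/-- the symbol of the variable of kind `ξ` in the row constraint of `e` at the symbol `a` -/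
noncomputable def sym (e : E) (ξ : Ξ) (j : Fin h) (a : Q) : Q :=
  if X.keep e j then a else X.out e ξ j

/-- the address of the kind `ξ` in the instance of `e` at the address `x` -/
noncomputable def adr (e : E) (ξ : Ξ) (x : Fin h → Q) : Fin h → Q := fun j => X.sym e ξ j (x j)

/-- `Kn` (known sums) is closed under all equations, in all directions -/
def Closed (Kn : Ξ → (Fin h → Q) → ZMod 2 → Prop) : Prop :=
  open Classical in
  ∀ e x, ∀ ξ0 ∈ X.kinds e, ∀ val : Ξ → ZMod 2,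
    (∀ ξ ∈ X.kinds e, ξ ≠ ξ0 → Kn ξ (X.adr e ξ x) (val ξ)) →
      Kn ξ0 (X.adr e ξ0 x) (X.par e + ∑ ξ ∈ (X.kinds e).erase ξ0, val ξ)

/-- the hypotheses of the theorem of Duplicator -/
structure Ok (k : ℕ) (Kn : Ξ → (Fin h → Q) → ZMod 2 → Prop) : Prop where
  lam_ne : ∀ ξ, ∃ w, X.lam ξ w = 1
  sum_zero : ∀ e j, X.keep e j → ∀ w, ∑ ξ ∈ X.kinds e, X.lam ξ w = 0
  minimal : ∀ e, ∀ D ⊆ X.kinds e, D.Nonempty → (∀ w, ∑ ξ ∈ D, X.lam ξ w = 0) → D = X.kinds e
  inter : ∀ e e' ξ ξ', ξ ≠ ξ' → ξ ∈ X.kinds e → ξ' ∈ X.kinds e → ξ ∈ X.kinds e' →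
    ξ' ∈ X.kinds e' → e = e'
  unary : ∀ e ξ, X.kinds e = {ξ} → ∀ y val, Kn ξ y val → y = X.out e ξ
  uniq : ∀ ξ y v v', Kn ξ y v → Kn ξ y v' → v = v'
  close : X.Closed Kn
  indep : ∀ A : Finset E, A.Nonempty → A.card ≤ k + 1 →
    ∃ β : Ξ → ZMod 2, ∑ e ∈ A, ∑ ξ ∈ X.kinds e, β ξ ≠ 0

/-- the kinds of an item -/
def ks : It Q Ξ E k → Finset Ξ
  | .var ξ _ _ => {ξ}
  | .rule e _ _ => X.kinds e
  | .cross _ => ∅

variable [Inhabited Q] (P : Rows k h)

/-- the symbols of the variables of an item -/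
noncomputable def sy : It Q Ξ E k → Ξ → Q
  | .var _ _ a => fun _ => a
  | .rule e r a => fun ξ => X.sym e ξ (P.π r) a
  | .cross _ => fun _ => default

/-- the value of the variable `v(ξ, r, a)` -/
def Vl (ξ : Ξ) (r : Fin k) (a : Q) : Par Q Ξ W k →ₗ[ZMod 2] ZMod 2 where
  toFun p := (p r).1 ξ + X.lam ξ ((p r).2 a)
  map_add' p q := by
    simp only [Pi.add_apply, Prod.fst_add, Prod.snd_add, map_add]
    ring
  map_smul' c p := by
    simp only [Pi.smul_apply, Prod.smul_fst, Prod.smul_snd, map_smul, smul_eq_mul, RingHom.id_apply]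
    ring

/-- the value of the slack variable `s(e, r)` -/
noncomputable def Sv (e : E) (r : Fin k) : Par Q Ξ W k →ₗ[ZMod 2] ZMod 2 :=
  ∑ ξ ∈ X.kinds e, X.Vl ξ r (X.sym e ξ (P.π r) default)

/-- the sum of the variables of kind `ξ` at the address `y` -/
def KS (ξ : Ξ) (y : Fin h → Q) : Par Q Ξ W k →ₗ[ZMod 2] ZMod 2 := ∑ r, X.Vl ξ r (y (P.π r))

/-- the sum of the slack variables of `e` -/
noncomputable def ES (e : E) : Par Q Ξ W k →ₗ[ZMod 2] ZMod 2 := ∑ r, X.Sv P e r

/-- the variable `v(ξ, r, a)` belongs to an item of `Y` -/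
def CovV (Y : Finset (It Q Ξ E k)) (ξ : Ξ) (r : Fin k) (a : Q) : Prop :=
  ∃ y ∈ Y, y.row = some r ∧ ξ ∈ X.ks y ∧ X.sy P y ξ = a

/-- all slack variables of `e` are determined by the items of `Y` -/
def CovE (Y : Finset (It Q Ξ E k)) (e : E) : Prop :=
  It.cross e ∈ Y ∨ ∀ r, ∃ a, It.rule e r a ∈ Y

/-- the invariant of Duplicator -/
def Good (Kn : Ξ → (Fin h → Q) → ZMod 2 → Prop) (Y : Finset (It Q Ξ E k)) (p : Par Q Ξ W k) :
    Prop :=
  (∀ ξ y val, Kn ξ y val → (∀ r, X.CovV P Y ξ r (y (P.π r))) → X.KS P ξ y p = val) ∧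
    ∀ e, CovE Y e → X.ES P e p = X.par e

/-- the changes of the parameters which are not seen by the items of `Y` -/
def Fix (Y : Finset (It Q Ξ E k)) : Submodule (ZMod 2) (Par Q Ξ W k) where
  carrier := {q | (∀ ξ r a, X.CovV P Y ξ r a → X.Vl ξ r a q = 0) ∧
    ∀ e r, It.cross e ∈ Y → X.Sv P e r q = 0}
  add_mem' := by
    rintro a b ⟨a1, a2⟩ ⟨b1, b2⟩
    exact ⟨fun ξ r c hc => by rw [map_add, a1 ξ r c hc, b1 ξ r c hc, add_zero],
      fun e r he => by rw [map_add, a2 e r he, b2 e r he, add_zero]⟩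
  zero_mem' := ⟨fun _ _ _ _ => map_zero _, fun _ _ _ => map_zero _⟩
  smul_mem' := by
    rintro c a ⟨a1, a2⟩
    exact ⟨fun ξ r d hd => by rw [map_smul, a1 ξ r d hd, smul_zero],
      fun e r he => by rw [map_smul, a2 e r he, smul_zero]⟩

variable {X P} {Kn : Ξ → (Fin h → Q) → ZMod 2 → Prop}

theorem Good.mono {Y Y' : Finset (It Q Ξ E k)} {p : Par Q Ξ W k} (hg : X.Good P Kn Y p)
    (hs : Y' ⊆ Y) : X.Good P Kn Y' p :=
  ⟨fun ξ y val h1 h2 => hg.1 ξ y val h1 fun r => (h2 r).imp fun _ h => ⟨hs h.1, h.2⟩,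
    fun e he => hg.2 e (he.imp (fun h => hs h) fun h r => (h r).imp fun _ h => hs h)⟩

theorem good_empty (hk : 0 < k) (p : Par Q Ξ W k) : X.Good P Kn ∅ p := by
  refine ⟨fun ξ y val _ h2 => ?_, fun e he => ?_⟩
  · obtain ⟨y, hy, -⟩ := h2 ⟨0, hk⟩
    exact absurd hy (notMem_empty _)
  · rcases he with he | he
    · exact absurd he (notMem_empty _)
    · obtain ⟨a, ha⟩ := he ⟨0, hk⟩
      exact absurd ha (notMem_empty _)

omit [Inhabited Q] in
theorem Vl_apply (ξ : Ξ) (r : Fin k) (a : Q) (p : Par Q Ξ W k) :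
    X.Vl ξ r a p = (p r).1 ξ + X.lam ξ ((p r).2 a) := rfl

theorem Sv_eq (hX : X.Ok k Kn) (e : E) (r : Fin k) (a : Q) (p : Par Q Ξ W k) :
    X.Sv P e r p = ∑ ξ ∈ X.kinds e, X.Vl ξ r (X.sym e ξ (P.π r) a) p := by
  rw [Sv, LinearMap.sum_apply]
  by_cases hk : X.keep e (P.π r)
  · simp only [sym, if_pos hk, Vl_apply, sum_add_distrib, hX.sum_zero e _ hk]
  · simp only [sym, if_neg hk]

omit [Inhabited Q] in
theorem KS_apply (ξ : Ξ) (y : Fin h → Q) (p : Par Q Ξ W k) :
    X.KS P ξ y p = ∑ r, X.Vl ξ r (y (P.π r)) p := by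
  rw [KS, LinearMap.sum_apply]

theorem ES_apply (e : E) (p : Par Q Ξ W k) : X.ES P e p = ∑ r, X.Sv P e r p := by
  rw [ES, LinearMap.sum_apply]

theorem ES_eq (hX : X.Ok k Kn) (e : E) (x : Fin h → Q) (p : Par Q Ξ W k) :
    X.ES P e p = ∑ ξ ∈ X.kinds e, X.KS P ξ (X.adr e ξ x) p := by
  simp only [ES_apply, KS_apply]
  rw [sum_comm]
  exact sum_congr rfl fun r _ => Sv_eq hX e r (x (P.π r)) p

theorem Sv_fix (hX : X.Ok k Kn) {Y : Finset (It Q Ξ E k)} {q : Par Q Ξ W k} (hq : q ∈ X.Fix P Y)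
    {e : E} {r : Fin k} {a : Q} (h : It.rule e r a ∈ Y) : X.Sv P e r q = 0 := by
  rw [Sv_eq hX e r a]
  exact sum_eq_zero fun ξ hξ => hq.1 ξ r _ ⟨_, h, rfl, hξ, rfl⟩

theorem Good.add (hX : X.Ok k Kn) {Y : Finset (It Q Ξ E k)} {p q : Par Q Ξ W k}
    (hg : X.Good P Kn Y p) (hq : q ∈ X.Fix P Y) : X.Good P Kn Y (p + q) := by
  refine ⟨fun ξ y val h1 h2 => ?_, fun e he => ?_⟩
  · rw [map_add, hg.1 ξ y val h1 h2, KS_apply, sum_eq_zero fun r _ => hq.1 ξ r _ (h2 r), add_zero]
  · rw [map_add, hg.2 e he, ES_apply, sum_eq_zero, add_zero]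
    intro r _
    rcases he with he | he
    · exact hq.2 e r he
    · obtain ⟨a, ha⟩ := he r
      exact Sv_fix hX hq ha

/-! ### parameters in one row -/

/-- a parameter which lives in one row -/
def one (r : Fin k) (β : Ξ → ZMod 2) (w : Q → W) : Par Q Ξ W k := Pi.single r (β, w)

omit [Inhabited Q] in
theorem Vl_one (ξ : Ξ) (r : Fin k) (a : Q) (β : Ξ → ZMod 2) (w : Q → W) :
    X.Vl ξ r a (one r β w) = β ξ + X.lam ξ (w a) := by
  simp [Vl_apply, one]

omit [Inhabited Q] in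
theorem Vl_one_ne (ξ : Ξ) {r r' : Fin k} (hr : r' ≠ r) (a : Q) (β : Ξ → ZMod 2) (w : Q → W) :
    X.Vl ξ r' a (one r β w) = 0 := by
  simp [Vl_apply, one, Pi.single_eq_of_ne hr]

theorem Sv_one_ne (e : E) {r r' : Fin k} (hr : r' ≠ r) (β : Ξ → ZMod 2) (w : Q → W) :
    X.Sv P e r' (one r β w) = 0 := by
  rw [Sv, LinearMap.sum_apply]
  exact sum_eq_zero fun ξ _ => Vl_one_ne ξ hr _ β w

theorem Sv_one_zero (e : E) (r : Fin k) (β : Ξ → ZMod 2) :
    X.Sv P e r (one r β (0 : Q → W)) = ∑ ξ ∈ X.kinds e, β ξ := by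
  rw [Sv, LinearMap.sum_apply]
  exact sum_congr rfl fun ξ _ => by rw [Vl_one]; simp

theorem ES_one (e : E) (r : Fin k) (β : Ξ → ZMod 2) (w : Q → W) :
    X.ES P e (one r β w) = X.Sv P e r (one r β w) := by
  rw [ES_apply, sum_eq_single r (fun r' _ hr => Sv_one_ne e hr β w) (by simp)]

theorem one_mem {Y : Finset (It Q Ξ E k)} {r : Fin k} {β : Ξ → ZMod 2} {w : Q → W}
    (h1 : ∀ y ∈ Y, y.row = some r → ∀ ξ ∈ X.ks y, β ξ + X.lam ξ (w (X.sy P y ξ)) = 0)
    (h2 : ∀ e, It.cross e ∈ Y → X.Sv P e r (one r β w) = 0) : one r β w ∈ X.Fix P Y := by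
  refine ⟨fun ξ r' a ⟨y, hy, e1, e2, e3⟩ => ?_, fun e r' he => ?_⟩
  · by_cases hr : r' = r
    · subst hr
      rw [Vl_one, ← e3]
      exact h1 y hy e1 ξ e2
    · exact Vl_one_ne ξ hr a β w
  · by_cases hr : r' = r
    · subst hr
      exact h2 e he
    · exact Sv_one_ne e hr β w

theorem sum_single {D : Finset Ξ} [DecidableEq Ξ] (ξ : Ξ) :
    ∑ ζ ∈ D, (Pi.single ξ 1 : Ξ → ZMod 2) ζ = if ξ ∈ D then 1 else 0 := by
  simp [Pi.single_apply, sum_ite_eq']

/-- a sum of variables which is determined by the variables of one item -/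
theorem test (z : It Q Ξ E k) (D : Finset Ξ) (g : Ξ → Q)
    (h : ∀ (β : Ξ → ZMod 2) (w : Q → W),
      (∀ ξ ∈ X.ks z, β ξ + X.lam ξ (w (X.sy P z ξ)) = 0) →
        ∑ ξ ∈ D, (β ξ + X.lam ξ (w (g ξ))) = 0) :
    D ⊆ X.ks z ∧ ∀ w : Q → W, ∑ ξ ∈ D, (X.lam ξ (w (X.sy P z ξ)) + X.lam ξ (w (g ξ))) = 0 := by
  classical
  constructor
  · intro ξ hξ
    by_contra hn
    have := h (Pi.single ξ 1) 0 fun ζ hζ => by
      rw [Pi.single_eq_of_ne (by rintro rfl; exact hn hζ)]
      simp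
    simp only [Pi.zero_apply, map_zero, add_zero, sum_single, if_pos hξ] at this
    exact one_ne_zero this
  · intro w
    exact h (fun ξ => X.lam ξ (w (X.sy P z ξ))) w fun ξ _ => CharTwo.add_self_eq_zero _

omit [Inhabited Q] in
theorem sym_eq (hX : X.Ok k Kn) {ξ : Ξ} {a a' : Q}
    (h : ∀ w : Q → W, X.lam ξ (w a) + X.lam ξ (w a') = 0) : a = a' := by
  classical
  by_contra hn
  obtain ⟨w0, hw⟩ := hX.lam_ne ξ
  have := h (Pi.single a w0)
  rw [Pi.single_eq_same, Pi.single_eq_of_ne (Ne.symm hn), hw, map_zero, add_zero] at this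
  exact one_ne_zero this

omit [Inhabited Q] in
theorem kinds_ne (hX : X.Ok k Kn) (e : E) : (X.kinds e).Nonempty := by
  obtain ⟨β, hβ⟩ := hX.indep {e} (singleton_nonempty e) (by simp)
  rw [sum_singleton] at hβ
  rw [nonempty_iff_ne_empty]
  rintro h0
  rw [h0] at hβ
  exact hβ sum_empty

omit [Inhabited Q] in
theorem not_keep (hX : X.Ok k Kn) {e : E} {ξ : Ξ} (he : X.kinds e = {ξ}) (j : Fin h) :
    ¬ X.keep e j := fun hk => by
  obtain ⟨w0, hw⟩ := hX.lam_ne ξ
  have := hX.sum_zero e j hk w0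
  rw [he, sum_singleton, hw] at this
  exact one_ne_zero this

omit [Inhabited Q] in
theorem adr_unary (hX : X.Ok k Kn) {e : E} {ξ : Ξ} (he : X.kinds e = {ξ}) (x : Fin h → Q) :
    X.adr e ξ x = X.out e ξ := by
  funext j
  simp [adr, sym, not_keep hX he j]

theorem kn_unary (hX : X.Ok k Kn) {e : E} {ξ : Ξ} (he : X.kinds e = {ξ}) :
    Kn ξ (X.out e ξ) (X.par e) := by
  classical
  have := hX.close e default ξ (by simp [he]) 0 fun ζ hζ hne => by
    rw [he, mem_singleton] at hζ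
    exact absurd hζ hne
  rw [adr_unary hX he] at this
  simpa using this

theorem ES_unary (hX : X.Ok k Kn) {e : E} {ξ : Ξ} (he : X.kinds e = {ξ}) (p : Par Q Ξ W k) :
    X.ES P e p = X.KS P ξ (X.out e ξ) p := by
  rw [ES_eq hX e default, he, sum_singleton, adr_unary hX he]

omit [Inhabited Q] in
/-- an item with two kinds of the equation `e` is a row constraint of `e` -/
theorem two_kinds (hX : X.Ok k Kn) {y : It Q Ξ E k} {r : Fin k} (hr : y.row = some r) {e : E}
    {ξ ξ' : Ξ} (hne : ξ ≠ ξ') (h1 : ξ ∈ X.ks y) (h2 : ξ' ∈ X.ks y) (h3 : ξ ∈ X.kinds e)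
    (h4 : ξ' ∈ X.kinds e) : ∃ a, y = .rule e r a := by
  cases y with
  | var ζ r' a =>
    simp only [ks, mem_singleton] at h1 h2
    exact absurd (h1.trans h2.symm) hne
  | rule e' r' a =>
    obtain rfl := hX.inter e' e ξ ξ' hne h1 h2 h3 h4
    obtain rfl : r' = r := Option.some.inj hr
    exact ⟨a, rfl⟩
  | cross e' => exact absurd h1 (notMem_empty _)

theorem single_or_two {D : Finset Ξ} (hD : D.Nonempty) :
    (∃ ξ, D = {ξ}) ∨ ∃ ξ ∈ D, ∃ ξ' ∈ D, ξ ≠ ξ' := by
  rcases hD.exists_eq_singleton_or_nontrivial with h | h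
  · exact Or.inl h
  · exact Or.inr h

/-! ### a cross item is added -/

theorem forth_cross (hX : X.Ok k Kn) {Y : Finset (It Q Ξ E k)} (hY : Y.card ≤ k)
    {p : Par Q Ξ W k} (hg : X.Good P Kn Y p) (e : E) :
    ∃ q ∈ X.Fix P Y, X.ES P e (p + q) = X.par e := by
  classical
  by_cases hp : X.ES P e p = X.par e
  · exact ⟨0, Submodule.zero_mem _, by rw [add_zero, hp]⟩
  have hc : ¬ CovE Y e := fun h => hp (hg.2 e h)
  suffices h : ∃ q ∈ X.Fix P Y, X.ES P e q ≠ 0 by
    obtain ⟨q, h1, h2⟩ := h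
    refine ⟨q, h1, ?_⟩
    rw [map_add]
    revert hp h2
    generalize X.ES P e p = a
    generalize X.ES P e q = b
    generalize X.par e = c
    revert a b c
    decide
  by_contra hn
  push Not at hn
  by_cases hrow : ∃ r, ∀ y ∈ Y, y.row ≠ some r
  · obtain ⟨r, hr⟩ := hrow
    have hinj : Function.Injective (It.cross : E → It Q Ξ E k) := fun _ _ h => It.cross.inj h
    set A : Finset E := insert e (Y.preimage It.cross hinj.injOn) with hA
    have hAc : A.card ≤ k + 1 := by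
      refine (card_insert_le _ _).trans (Nat.succ_le_succ (le_trans ?_ hY))
      exact card_le_card_of_injOn It.cross (fun y hy => mem_preimage.1 hy) hinj.injOn
    let f : A → (Ξ → ZMod 2) →ₗ[ZMod 2] ZMod 2 := fun e' => ∑ ξ ∈ X.kinds e'.1, LinearMap.proj ξ
    have hf : ∀ e' β, f e' β = ∑ ξ ∈ X.kinds e'.1, β ξ := fun e' β => by
      simp [f, LinearMap.sum_apply]
    obtain ⟨β, -, hβ⟩ := solve ⊤ f (fun e' => if e'.1 = e then 1 else 0) fun D hD => by
      by_cases h0 : D = ∅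
      · rw [h0, sum_empty]
      · exfalso
        obtain ⟨β, hβ⟩ := hX.indep (D.map (Function.Embedding.subtype _))
          (by rwa [map_nonempty, nonempty_iff_ne_empty]) (by
            rw [card_map]
            exact (card_le_univ D).trans (by rwa [Fintype.card_coe]))
        apply hβ
        rw [sum_map, ← hD β Submodule.mem_top]
        exact sum_congr rfl fun e' _ => (hf e' β).symm
    have h1 : one r β (0 : Q → W) ∈ X.Fix P Y := by
      refine one_mem (fun y hy h => absurd h (hr y hy)) fun e' he' => ?_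
      have := hβ ⟨e', mem_insert_of_mem (mem_preimage.2 he')⟩
      rw [hf, if_neg (fun h : e' = e => hc (Or.inl (h ▸ he')))] at this
      rw [Sv_one_zero, this]
    have h2 := hn _ h1
    have h3 := hβ ⟨e, mem_insert_self _ _⟩
    rw [hf, if_pos rfl] at h3
    rw [ES_one, Sv_one_zero, h3] at h2
    exact one_ne_zero h2
  · push Not at hrow
    choose g hg1 hg2 using hrow
    have hinj : Function.Injective g := fun r r' h =>
      Option.some.inj ((hg2 r).symm.trans (h ▸ hg2 r'))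
    have him : univ.image g = Y := by
      refine eq_of_subset_of_card_le (fun y hy => ?_) ?_
      · obtain ⟨r, -, rfl⟩ := mem_image.1 hy
        exact hg1 r
      · rwa [card_image_of_injective _ hinj, card_univ, Fintype.card_fin]
    have hall : ∀ y ∈ Y, ∃ r, y = g r := fun y hy => by
      rw [← him] at hy
      obtain ⟨r, -, rfl⟩ := mem_image.1 hy
      exact ⟨r, rfl⟩
    have ht : ∀ r, X.kinds e ⊆ X.ks (g r) ∧ ∀ w : Q → W, ∑ ξ ∈ X.kinds e,
        (X.lam ξ (w (X.sy P (g r) ξ)) + X.lam ξ (w (X.sym e ξ (P.π r) default))) = 0 := by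
      intro r
      refine test (g r) _ _ fun β w hβ => ?_
      have h1 : one r β w ∈ X.Fix P Y := by
        refine one_mem (fun y hy h => ?_) fun e' he' => ?_
        · obtain ⟨r', rfl⟩ := hall y hy
          obtain rfl : r' = r := Option.some.inj ((hg2 r').symm.trans h)
          exact hβ
        · obtain ⟨r', hr'⟩ := hall _ he'
          have := hg2 r'
          rw [← hr'] at this
          exact absurd this (by simp [It.row])
      have h2 := hn _ h1
      rw [ES_one, Sv_eq hX e r default] at h2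
      simpa only [Vl_one] using h2
    rcases single_or_two (kinds_ne hX e) with ⟨ξ, hξ⟩ | ⟨ξ, h1, ξ', h2, hne⟩
    · apply hp
      rw [ES_unary hX hξ]
      refine hg.1 ξ _ _ (kn_unary hX hξ) fun r => ⟨g r, hg1 r, hg2 r, (ht r).1 (by simp [hξ]), ?_⟩
      have h3 := (ht r).2
      simp only [hξ, sum_singleton] at h3
      rw [sym_eq hX h3, sym, if_neg (not_keep hX hξ _)]
    · refine hc (Or.inr fun r => ?_)
      obtain ⟨a, ha⟩ := two_kinds hX (hg2 r) hne ((ht r).1 h1) ((ht r).1 h2) h1 h2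
      exact ⟨a, ha ▸ hg1 r⟩

/-! ### a row item is added -/

section row

variable {Y : Finset (It Q Ξ E k)} {x : It Q Ξ E k} {r1 : Fin k}

theorem covV_insert (hx : x.row = some r1) {ξ : Ξ} {r : Fin k} {a : Q} [DecidableEq (It Q Ξ E k)]
    (h : X.CovV P (insert x Y) ξ r a) :
    X.CovV P Y ξ r a ∨ (r = r1 ∧ ξ ∈ X.ks x ∧ X.sy P x ξ = a) := by
  obtain ⟨y, hy, h1, h2, h3⟩ := h
  rcases mem_insert.1 hy with rfl | hy
  · exact Or.inr ⟨Option.some.inj (h1.symm.trans hx), h2, h3⟩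
  · exact Or.inl ⟨y, hy, h1, h2, h3⟩

/-- the position: one item `g r` in every row, and perhaps one more item `z` -/
structure Pos (Y : Finset (It Q Ξ E k)) (x : It Q Ξ E k) (r1 : Fin k) (g : Fin k → It Q Ξ E k)
    (z : It Q Ξ E k) : Prop where
  row : ∀ r, (g r).row = some r
  one : g r1 = x
  mem : ∀ r, r ≠ r1 → g r ∈ Y
  all : ∀ y ∈ Y, y = z ∨ ∃ r, r ≠ r1 ∧ y = g r

omit [Inhabited Q] in
theorem exists_pos (hY : Y.card ≤ k) (hx : x.row = some r1)
    (h : ∀ r, r ≠ r1 → ∃ y ∈ Y, y.row = some r) : ∃ g z, Pos Y x r1 g z := by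
  classical
  have h' : ∀ r, ∃ y : It Q Ξ E k, y.row = some r ∧ (r = r1 → y = x) ∧ (r ≠ r1 → y ∈ Y) := by
    intro r
    by_cases hr : r = r1
    · exact ⟨x, hr ▸ hx, fun _ => rfl, fun h => absurd hr h⟩
    · obtain ⟨y, h1, h2⟩ := h r hr
      exact ⟨y, h2, fun h => absurd h hr, fun _ => h1⟩
  choose g g1 g2 g3 using h'
  have hinj : Function.Injective g := fun r r' h =>
    Option.some.inj ((g1 r).symm.trans (h ▸ g1 r'))
  have hsub : (univ.erase r1).image g ⊆ Y := fun y hy => by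
    obtain ⟨r, hr, rfl⟩ := mem_image.1 hy
    exact g3 r (mem_erase.1 hr).1
  have hc : (Y \ (univ.erase r1).image g).card ≤ 1 := by
    rw [card_sdiff_of_subset hsub, card_image_of_injective _ hinj, card_erase_of_mem (mem_univ _),
      card_univ, Fintype.card_fin]
    omega
  obtain ⟨z, hz⟩ : ∃ z, Y \ (univ.erase r1).image g ⊆ {z} := by
    rcases (Y \ (univ.erase r1).image g).eq_empty_or_nonempty with h0 | ⟨z, hz⟩
    · exact ⟨x, by rw [h0]; exact empty_subset _⟩
    · exact ⟨z, fun y hy => mem_singleton.2 (card_le_one.1 hc y hy z hz)⟩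
  refine ⟨g, z, g1, g2 r1 rfl, g3, fun y hy => ?_⟩
  by_cases h1 : y ∈ (univ.erase r1).image g
  · obtain ⟨r, hr, rfl⟩ := mem_image.1 h1
    exact Or.inr ⟨r, (mem_erase.1 hr).1, rfl⟩
  · exact Or.inl (mem_singleton.1 (hz (mem_sdiff.2 ⟨hy, h1⟩)))

variable {g : Fin k → It Q Ξ E k} {z : It Q Ξ E k}

omit [Inhabited Q] in
theorem Pos.eq_of_row (hp : Pos Y x r1 g z) {y : It Q Ξ E k} (hy : y ∈ Y) {r : Fin k}
    (hr : y.row = some r) : y = z ∨ (r ≠ r1 ∧ y = g r) := by
  rcases hp.all y hy with h | ⟨r', h1, rfl⟩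
  · exact Or.inl h
  · obtain rfl : r' = r := Option.some.inj ((hp.row r').symm.trans hr)
    exact Or.inr ⟨h1, rfl⟩

omit [Inhabited Q] in
theorem Pos.cross (hp : Pos Y x r1 g z) {e : E} (he : It.cross e ∈ Y) : z = .cross e := by
  rcases hp.all _ he with h | ⟨r', -, h⟩
  · exact h.symm
  · have := hp.row r'
    rw [← h] at this
    exact absurd this (by simp [It.row])

/-- the address `y` of the kind `ξ` is covered by `x` and `Y`, but not by `Y` -/
structure New (X : XSys Q Ξ W E h) (P : Rows k h) (Y : Finset (It Q Ξ E k)) (x : It Q Ξ E k)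
    (r1 : Fin k) (ξ : Ξ) (y : Fin h → Q) : Prop where
  mem : ξ ∈ X.ks x
  sy : X.sy P x ξ = y (P.π r1)
  cov : ∀ r, r ≠ r1 → X.CovV P Y ξ r (y (P.π r))
  not : ¬ X.CovV P Y ξ r1 (y (P.π r1))

theorem New.single (hp : Pos Y x r1 g z) {ξ : Ξ} {y : Fin h → Q} (hn : New X P Y x r1 ξ y)
    {r : Fin k} (hr : z.row ≠ some r) : ξ ∈ X.ks (g r) ∧ X.sy P (g r) ξ = y (P.π r) := by
  by_cases h1 : r = r1
  · subst h1
    rw [hp.one]
    exact ⟨hn.mem, hn.sy⟩
  · obtain ⟨u, hu, e1, e2, e3⟩ := hn.cov r h1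
    rcases hp.eq_of_row hu e1 with rfl | ⟨-, rfl⟩
    · exact absurd e1 hr
    · exact ⟨e2, e3⟩

omit [Inhabited Q] in
theorem exists_single (P : Rows k h) (z : It Q Ξ E k) (j : Fin h) :
    ∃ r, P.π r = j ∧ z.row ≠ some r := by
  obtain ⟨r, hr⟩ := P.surj j
  obtain ⟨r', h1, h2⟩ := P.two r
  by_cases h3 : z.row = some r
  · exact ⟨r', h2.trans hr, fun h4 => h1 (Option.some.inj (h4.symm.trans h3))⟩
  · exact ⟨r, hr, h3⟩

theorem New.unique (hp : Pos Y x r1 g z) {ξ : Ξ} {y y' : Fin h → Q} (hn : New X P Y x r1 ξ y)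
    (hn' : New X P Y x r1 ξ y') : y = y' := by
  funext j
  obtain ⟨r, rfl, hr⟩ := exists_single P z j
  exact (hn.single hp hr).2.symm.trans (hn'.single hp hr).2

theorem New.KS_fix {ξ : Ξ} {y : Fin h → Q} (hn : New X P Y x r1 ξ y) {q : Par Q Ξ W k}
    (hq : q ∈ X.Fix P Y) : X.KS P ξ y q = X.Vl ξ r1 (X.sy P x ξ) q := by
  rw [KS_apply, sum_eq_single r1 (fun r _ hr => hq.1 ξ r _ (hn.cov r hr)) (by simp), hn.sy]

/-- the common address of the row constraints -/
theorem exists_adr (hp : Pos Y x r1 g z) {e : E}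
    (he : ∀ r, z.row ≠ some r → ∃ a, g r = .rule e r a) :
    ∃ u : Fin h → Q, ∀ ξ y, New X P Y x r1 ξ y → y = X.adr e ξ u := by
  choose i hi1 hi2 using exists_single P z
  choose a ha using fun j => he (i j) (hi2 j)
  refine ⟨a, fun ξ y hn => funext fun j => ?_⟩
  have := (hn.single hp (hi2 j)).2
  rw [ha j, hi1 j] at this
  rw [← this, adr, sy, hi1 j]

omit [Inhabited Q] in
theorem sum_all (hX : X.Ok k Kn) {e : E} {u : Fin h → Q} {v : Ξ → ZMod 2}
    (hv : ∀ ξ ∈ X.kinds e, Kn ξ (X.adr e ξ u) (v ξ)) : ∑ ξ ∈ X.kinds e, v ξ = X.par e := by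
  classical
  obtain ⟨ξ0, h0⟩ := kinds_ne hX e
  have h1 := hX.uniq _ _ _ _ (hv ξ0 h0) (hX.close e u ξ0 h0 v fun ξ hξ _ => hv ξ hξ)
  rw [← add_sum_erase _ _ h0, h1, add_assoc, CharTwo.add_self_eq_zero, add_zero]

/-- the relations between the new conditions hold -/
theorem relation [DecidableEq Ξ] (hX : X.Ok k Kn) (hp : Pos Y x r1 g z) {p : Par Q Ξ W k}
    (hg : X.Good P Kn Y p) {D : Finset Ξ} {y : Ξ → Fin h → Q} {v : Ξ → ZMod 2}
    (hn : ∀ ξ ∈ D, New X P Y x r1 ξ (y ξ)) (hv : ∀ ξ ∈ D, Kn ξ (y ξ) (v ξ)) :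
    ((∀ q ∈ X.Fix P Y, ∑ ξ ∈ D, X.Vl ξ r1 (X.sy P x ξ) q = 0) →
      ∑ ξ ∈ D, (v ξ + X.KS P ξ (y ξ) p) = 0) ∧
    ∀ e a, x = .rule e r1 a → (∀ r, r ≠ r1 → ∃ a, It.rule e r a ∈ Y) → ¬ CovE Y e →
      (∀ q ∈ X.Fix P Y, ∑ ξ ∈ X.kinds e \ D, X.Vl ξ r1 (X.sy P x ξ) q = 0) →
      ∑ ξ ∈ D, (v ξ + X.KS P ξ (y ξ) p) + (X.par e + X.ES P e p) = 0 := by
  have hxr : x.row = some r1 := hp.one ▸ hp.row r1
  -- all kinds of an equation
  have hall : ∀ e, D = X.kinds e → (∀ r, z.row ≠ some r → ∃ a, g r = .rule e r a) →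
      ∑ ξ ∈ D, (v ξ + X.KS P ξ (y ξ) p) = X.par e + X.ES P e p := by
    rintro e rfl he
    obtain ⟨u, hu⟩ := exists_adr (X := X) (P := P) hp he
    rw [sum_add_distrib, ES_eq hX e u, sum_all hX fun ξ hξ => hu ξ _ (hn ξ hξ) ▸ hv ξ hξ]
    congr 1
    exact sum_congr rfl fun ξ hξ => by rw [← hu ξ _ (hn ξ hξ)]
  have hrule : ∀ e, D = X.kinds e → ∀ ξ ∈ D, ∀ ξ' ∈ D, ξ ≠ ξ' →
      ∀ r, z.row ≠ some r → ∃ a, g r = .rule e r a := fun e he ξ h1 ξ' h2 hne r hr =>
    two_kinds hX (hp.row r) hne ((hn ξ h1).single hp hr).1 ((hn ξ' h2).single hp hr).1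
      (he ▸ h1) (he ▸ h2)
  -- what a vanishing sum means
  have hvan : ∀ D' : Finset Ξ, D'.Nonempty →
      (∀ q ∈ X.Fix P Y, ∑ ξ ∈ D', X.Vl ξ r1 (X.sy P x ξ) q = 0) →
      (∃ e', It.cross e' ∈ Y ∧ z = .cross e' ∧ D' = X.kinds e') ∨
      (z ∈ Y ∧ z.row = some r1 ∧ D' ⊆ X.ks z ∧ ∀ w : Q → W,
        ∑ ξ ∈ D', (X.lam ξ (w (X.sy P z ξ)) + X.lam ξ (w (X.sy P x ξ))) = 0) := by
    intro D' ⟨ξ1, hξ1⟩ h0
    by_cases hc : ∃ e', It.cross e' ∈ Y
    · obtain ⟨e', he'⟩ := hc
      have hz := hp.cross he'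
      have ht : ∀ β : Ξ → ZMod 2, ∑ ξ ∈ X.kinds e', β ξ = 0 → ∑ ξ ∈ D', β ξ = 0 := by
        intro β hβ
        have := h0 (one r1 β 0) (one_mem (fun u hu h1 => ?_) fun e'' he'' => ?_)
        · simpa [Vl_one] using this
        · rcases hp.eq_of_row hu h1 with rfl | ⟨h2, -⟩
          · rw [hz] at h1
            exact absurd h1 (by simp [It.row])
          · exact absurd rfl h2
        · obtain rfl : e' = e'' := It.cross.inj (hz.symm.trans (hp.cross he''))
          rw [Sv_one_zero, hβ]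
      refine Or.inl ⟨e', he', hz, Subset.antisymm (fun ξ hξ => ?_) fun ξ hξ => ?_⟩
      · by_contra h1
        have := ht (Pi.single ξ 1) (by rw [sum_single, if_neg h1])
        rw [sum_single, if_pos hξ] at this
        exact one_ne_zero this
      · by_contra h1
        have h2 : ξ1 ∈ X.kinds e' := by
          by_contra h1
          have := ht (Pi.single ξ1 1) (by rw [sum_single, if_neg h1])
          rw [sum_single, if_pos hξ1] at this
          exact one_ne_zero this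
        have := ht (Pi.single ξ 1 + Pi.single ξ1 1) (by
          simp only [Pi.add_apply, sum_add_distrib, sum_single, if_pos hξ, if_pos h2]
          decide)
        simp only [Pi.add_apply, sum_add_distrib, sum_single, if_neg h1, if_pos hξ1,
          zero_add] at this
        exact one_ne_zero this
    · push Not at hc
      by_cases hz : z ∈ Y ∧ z.row = some r1
      · refine Or.inr ⟨hz.1, hz.2, test z D' _ fun β w hβ => ?_⟩
        have := h0 (one r1 β w) (one_mem (fun u hu h1 => ?_) fun e' he' => absurd he' (hc e'))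
        · simpa only [Vl_one] using this
        · rcases hp.eq_of_row hu h1 with rfl | ⟨h2, -⟩
          · exact hβ
          · exact absurd rfl h2
      · exfalso
        have := h0 (one r1 (Pi.single ξ1 1) 0)
          (one_mem (fun u hu h1 => ?_) fun e' he' => absurd he' (hc e'))
        · simp only [Vl_one, Pi.zero_apply, map_zero, add_zero, sum_single, if_pos hξ1] at this
          exact one_ne_zero this
        · rcases hp.eq_of_row hu h1 with rfl | ⟨h2, -⟩
          · exact absurd ⟨hu, h1⟩ hz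
          · exact absurd rfl h2
  constructor
  · intro h0
    rcases D.eq_empty_or_nonempty with rfl | hD
    · exact sum_empty
    rcases hvan D hD h0 with ⟨e', he', hz, hk⟩ | ⟨hz1, hz2, hz3, hz4⟩
    · have hE := hg.2 e' (Or.inl he')
      rcases single_or_two hD with ⟨ξ, rfl⟩ | ⟨ξ, h1, ξ', h2, hne⟩
      · have h1 := hv ξ (mem_singleton_self ξ)
        have h2 := hX.unary e' ξ hk.symm _ _ h1
        have h3 : v ξ = X.par e' := hX.uniq _ _ _ _ (h2 ▸ h1) (kn_unary hX hk.symm)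
        rw [sum_singleton, h2, ← ES_unary hX hk.symm, hE, h3]
        exact CharTwo.add_self_eq_zero _
      · rw [hall e' hk (hrule e' hk ξ h1 ξ' h2 hne), hE]
        exact CharTwo.add_self_eq_zero _
    · have hne : ∀ ξ ∈ D, X.sy P z ξ ≠ X.sy P x ξ := fun ξ hξ h1 =>
        (hn ξ hξ).not ⟨z, hz1, hz2, hz3 hξ, h1.trans (hn ξ hξ).sy⟩
      rcases single_or_two hD with ⟨ξ, rfl⟩ | ⟨ξ, h1, ξ', h2, hne'⟩
      · simp only [sum_singleton] at hz4
        exact absurd (sym_eq hX hz4) (hne ξ (mem_singleton_self ξ))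
      · obtain ⟨e, a, hx⟩ : ∃ e a, x = .rule e r1 a := by
          cases x with
          | var ζ r' a =>
            have e1 := (hn ξ h1).mem
            have e2 := (hn ξ' h2).mem
            simp only [ks, mem_singleton] at e1 e2
            exact absurd (e1.trans e2.symm) hne'
          | rule e' r' a =>
            obtain rfl : r' = r1 := Option.some.inj hxr
            exact ⟨e', a, rfl⟩
          | cross e' => exact absurd (hn ξ h1).mem (notMem_empty _)
        have hsub : D ⊆ X.kinds e := fun ζ hζ => by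
          have := (hn ζ hζ).mem
          rwa [hx] at this
        obtain ⟨a', hz⟩ := two_kinds hX hz2 hne' (hz3 h1) (hz3 h2) (hsub h1) (hsub h2)
        have hkeep : X.keep e (P.π r1) := by
          by_contra hk
          apply hne ξ h1
          rw [hx, hz]
          simp [sy, sym, hk]
        have haa : a' ≠ a := by
          have := hne ξ h1
          rw [hx, hz] at this
          simpa [sy, sym, hkeep] using this
        have hk : D = X.kinds e := hX.minimal e D hsub hD fun w0 => by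
          classical
          have := hz4 (Pi.single a w0)
          rw [hx, hz] at this
          simpa [sy, sym, hkeep, Pi.single_eq_of_ne haa] using this
        have hr := hrule e hk ξ h1 ξ' h2 hne'
        rw [hall e hk hr, hg.2 e (Or.inr fun r => ?_)]
        · exact CharTwo.add_self_eq_zero _
        · by_cases h3 : r = r1
          · exact ⟨a', h3 ▸ hz ▸ hz1⟩
          · obtain ⟨b, hb⟩ := hr r (by rw [hz2]; exact fun h => h3 (Option.some.inj h).symm)
            exact ⟨b, hb ▸ hp.mem r h3⟩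
  · intro e a hx hrows hcov h0
    have hsub : D ⊆ X.kinds e := fun ζ hζ => by
      have := (hn ζ hζ).mem
      rwa [hx] at this
    have hr : ∀ r, z.row ≠ some r → ∃ a, g r = .rule e r a := by
      intro r hr
      by_cases h3 : r = r1
      · exact ⟨a, h3 ▸ hp.one.trans hx⟩
      · obtain ⟨b, hb⟩ := hrows r h3
        rcases hp.eq_of_row hb rfl with h4 | ⟨-, h4⟩
        · exact absurd (h4 ▸ rfl) hr
        · exact ⟨b, h4.symm⟩
    rcases (X.kinds e \ D).eq_empty_or_nonempty with h1 | hD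
    · rw [hall e (Subset.antisymm hsub (sdiff_eq_empty_iff_subset.1 h1)) hr]
      exact CharTwo.add_self_eq_zero _
    obtain ⟨u, hu⟩ := exists_adr (X := X) (P := P) hp hr
    -- one kind is missing
    have hone : ∀ ξ0, X.kinds e \ D = {ξ0} →
        (∀ c, Kn ξ0 (X.adr e ξ0 u) c → X.KS P ξ0 (X.adr e ξ0 u) p = c) →
        ∑ ξ ∈ D, (v ξ + X.KS P ξ (y ξ) p) + (X.par e + X.ES P e p) = 0 := by
      intro ξ0 h1 h2
      have h3 : ξ0 ∈ X.kinds e \ D := h1 ▸ mem_singleton_self ξ0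
      have h4 : ∀ ξ, ξ ∈ D ↔ ξ ∈ X.kinds e ∧ ξ ≠ ξ0 := fun ξ =>
        ⟨fun h => ⟨hsub h, by rintro rfl; exact (mem_sdiff.1 h3).2 h⟩, fun h => by
          by_contra h5
          exact h.2 (mem_singleton.1 (h1 ▸ mem_sdiff.2 ⟨h.1, h5⟩))⟩
      have h5 := h2 _ (hX.close e u ξ0 (mem_sdiff.1 h3).1 v fun ξ hξ hne =>
        hu ξ _ (hn ξ ((h4 ξ).2 ⟨hξ, hne⟩)) ▸ hv ξ ((h4 ξ).2 ⟨hξ, hne⟩))
      have h6 : (X.kinds e).erase ξ0 = D := by
        ext ξ
        rw [h4, mem_erase, and_comm]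
      have h7 : ∑ ξ ∈ D, X.KS P ξ (X.adr e ξ u) p = ∑ ξ ∈ D, X.KS P ξ (y ξ) p :=
        sum_congr rfl fun ξ hξ => by rw [← hu ξ _ (hn ξ hξ)]
      rw [ES_eq hX e u, ← add_sum_erase _ _ (mem_sdiff.1 h3).1, h5, h6, h7, sum_add_distrib]
      have h8 : ∀ (i : DecidableEq Ξ), @erase Ξ i (X.kinds e) ξ0 = D := fun i => by
        ext ξ
        rw [h4, @mem_erase Ξ i, and_comm]
      rw [h8]
      generalize ∑ ξ ∈ D, v ξ = a
      generalize ∑ ξ ∈ D, X.KS P ξ (y ξ) p = b
      generalize X.par e = c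
      revert a b c
      decide
    rcases hvan _ hD h0 with ⟨e', he', hz, hk⟩ | ⟨hz1, hz2, hz3, hz4⟩
    · rcases single_or_two hD with ⟨ξ, h1⟩ | ⟨ξ, h1, ξ', h2, hne⟩
      · refine hone ξ h1 fun c hc => ?_
        have h2 : X.kinds e' = {ξ} := hk.symm.trans h1
        have h3 := hX.unary e' ξ h2 _ _ hc
        rw [h3, ← ES_unary hX h2, hg.2 e' (Or.inl he')]
        exact hX.uniq _ _ _ _ (kn_unary hX h2) (h3 ▸ hc)
      · obtain rfl := hX.inter e e' ξ ξ' hne (mem_sdiff.1 h1).1 (mem_sdiff.1 h2).1 (hk ▸ h1)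
          (hk ▸ h2)
        exact absurd (Or.inl he') hcov
    · rcases single_or_two hD with ⟨ξ, h1⟩ | ⟨ξ, h1, ξ', h2, hne⟩
      · refine hone ξ h1 fun c hc => hg.1 ξ _ c hc fun r => ?_
        have h2 : ξ ∈ X.kinds e \ D := h1 ▸ mem_singleton_self ξ
        have h3 : ∀ r b, (∀ ζ ∈ D, y ζ (P.π r) = X.sym e ζ (P.π r) b) →
            X.sym e ξ (P.π r) b = X.adr e ξ u (P.π r) := by
          intro r b hb
          by_cases hk : X.keep e (P.π r)
          · obtain ⟨ζ, hζ⟩ : D.Nonempty := by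
              rw [nonempty_iff_ne_empty]
              rintro rfl
              rw [sdiff_empty] at h1
              exact not_keep hX h1 _ hk
            have := hb ζ hζ
            rw [hu ζ _ (hn ζ hζ)] at this
            simpa [adr, sym, hk] using this.symm
          · simp [adr, sym, hk]
        by_cases h4 : r = r1
        · subst h4
          refine ⟨z, hz1, hz2, hz3 h2, ?_⟩
          simp only [h1, sum_singleton] at hz4
          rw [sym_eq hX hz4, ← h3 r a fun ζ hζ => by rw [← (hn ζ hζ).sy, hx]; rfl, hx]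
          rfl
        · have h5 : z.row ≠ some r := by
            rw [hz2]
            exact fun h => h4 (Option.some.inj h).symm
          obtain ⟨b, hb⟩ := hr r h5
          refine ⟨g r, hp.mem r h4, hp.row r, by rw [hb]; exact (mem_sdiff.1 h2).1, ?_⟩
          rw [← h3 r b fun ζ hζ => by rw [← ((hn ζ hζ).single hp h5).2, hb]; rfl, hb]
          rfl
      · obtain ⟨b, hb⟩ := two_kinds hX hz2 hne (hz3 h1) (hz3 h2) (mem_sdiff.1 h1).1
          (mem_sdiff.1 h2).1
        refine absurd (Or.inr fun r => ?_) hcov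
        by_cases h4 : r = r1
        · exact ⟨b, h4 ▸ hb ▸ hz1⟩
        · exact hrows r h4

theorem forth_row [Fintype Ξ] [DecidableEq (It Q Ξ E k)] (hX : X.Ok k Kn) (hY : Y.card ≤ k)
    {p : Par Q Ξ W k} (hg : X.Good P Kn Y p) (hx : x.row = some r1) :
    ∃ q ∈ X.Fix P Y, X.Good P Kn (insert x Y) (p + q) := by
  classical
  have hnew : ∀ ξ y, (∀ r, X.CovV P (insert x Y) ξ r (y (P.π r))) →
      (∀ r, X.CovV P Y ξ r (y (P.π r))) ∨ New X P Y x r1 ξ y := by
    intro ξ y hc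
    have h1 : ∀ r, r ≠ r1 → X.CovV P Y ξ r (y (P.π r)) := fun r hr =>
      (covV_insert hx (hc r)).resolve_right fun h => hr h.1
    by_cases h2 : X.CovV P Y ξ r1 (y (P.π r1))
    · refine Or.inl fun r => ?_
      by_cases hr : r = r1
      · exact hr ▸ h2
      · exact h1 r hr
    · have h3 := (covV_insert hx (hc r1)).resolve_left h2
      exact Or.inr ⟨h3.2.1, h3.2.2, h1, h2⟩
  let NE : E → Prop := fun e =>
    (∃ a, x = .rule e r1 a) ∧ (∀ r, r ≠ r1 → ∃ a, It.rule e r a ∈ Y) ∧ ¬ CovE Y e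
  have hnewE : ∀ e, CovE (insert x Y) e → CovE Y e ∨ NE e := by
    intro e he
    by_cases h0 : CovE Y e
    · exact Or.inl h0
    right
    rcases he with he | he
    · rcases mem_insert.1 he with h1 | h1
      · rw [← h1] at hx
        exact absurd hx (by simp [It.row])
      · exact absurd (Or.inl h1) h0
    · have h1 : ∀ r, r ≠ r1 → ∃ a, It.rule e r a ∈ Y := fun r hr => by
        obtain ⟨a, ha⟩ := he r
        rcases mem_insert.1 ha with h1 | h1
        · rw [← h1] at hx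
          exact absurd (Option.some.inj hx) hr
        · exact ⟨a, h1⟩
      obtain ⟨a, ha⟩ := he r1
      rcases mem_insert.1 ha with h2 | h2
      · exact ⟨⟨a, h2.symm⟩, h1, h0⟩
      · refine absurd (Or.inr fun r => ?_) h0
        by_cases hr : r = r1
        · exact ⟨a, hr ▸ h2⟩
        · exact h1 r hr
  by_cases hrows : ∀ r, r ≠ r1 → ∃ y ∈ Y, y.row = some r
  swap
  · refine ⟨0, Submodule.zero_mem _, ?_⟩
    rw [add_zero]
    refine ⟨fun ξ y val h1 h2 => ?_, fun e he => ?_⟩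
    · rcases hnew ξ y h2 with h3 | h3
      · exact hg.1 ξ y val h1 h3
      · exact absurd (fun r hr => (h3.cov r hr).imp fun _ h => ⟨h.1, h.2.1⟩) hrows
    · rcases hnewE e he with h3 | h3
      · exact hg.2 e h3
      · refine absurd (fun r hr => ?_) hrows
        obtain ⟨a, ha⟩ := h3.2.1 r hr
        exact ⟨_, ha, rfl⟩
  obtain ⟨g, z, hp⟩ := exists_pos hY hx hrows
  let N : Ξ → Prop := fun ξ => ∃ y val, New X P Y x r1 ξ y ∧ Kn ξ y val
  have hch : ∀ ξ, ∃ y val, N ξ → New X P Y x r1 ξ y ∧ Kn ξ y val := fun ξ => by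
    by_cases h : N ξ
    · obtain ⟨y, val, h⟩ := h
      exact ⟨y, val, fun _ => h⟩
    · exact ⟨default, 0, fun h' => absurd h' h⟩
  choose y v hyv using hch
  let f : Option Ξ → Par Q Ξ W k →ₗ[ZMod 2] ZMod 2 := fun i =>
    match i with
    | some ξ => if N ξ then X.KS P ξ (y ξ) else 0
    | none => if h : ∃ e, NE e then X.ES P h.choose else 0
  let t : Option Ξ → ZMod 2 := fun i =>
    match i with
    | some ξ => if N ξ then v ξ + X.KS P ξ (y ξ) p else 0
    | none => if h : ∃ e, NE e then X.par h.choose + X.ES P h.choose p else 0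
  obtain ⟨q, hq, hsol⟩ := solve (X.Fix P Y) f t fun D hD => by
    set D1 : Finset Ξ := univ.filter fun ξ => some ξ ∈ D ∧ N ξ with hD1
    have hmem : ∀ ξ ∈ D1, N ξ := fun ξ hξ => (mem_filter.1 hξ).2.2
    have hsum : ∀ F : Option Ξ → ZMod 2, (∀ ξ, ¬ N ξ → F (some ξ) = 0) →
        ∑ i ∈ D, F i = ∑ ξ ∈ D1, F (some ξ) + if none ∈ D then F none else 0 := by
      intro F hF
      conv_lhs => rw [← univ_inter D, ← sum_ite_mem, Fintype.sum_option, add_comm]
      rw [hD1, sum_filter]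
      congr 1
      refine sum_congr rfl fun ξ _ => ?_
      by_cases h1 : some ξ ∈ D <;> by_cases h2 : N ξ <;> simp [h1, h2, hF]
    obtain ⟨r1', r2'⟩ := relation hX hp hg (D := D1) (y := y) (v := v)
      (fun ξ hξ => (hyv ξ (hmem ξ hξ)).1) fun ξ hξ => (hyv ξ (hmem ξ hξ)).2
    have e1 : ∑ ξ ∈ D1, t (some ξ) = ∑ ξ ∈ D1, (v ξ + X.KS P ξ (y ξ) p) :=
      sum_congr rfl fun ξ hξ => if_pos (hmem ξ hξ)
    have e2 : ∀ q ∈ X.Fix P Y, ∑ ξ ∈ D1, f (some ξ) q = ∑ ξ ∈ D1, X.Vl ξ r1 (X.sy P x ξ) q :=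
      fun q hq => sum_congr rfl fun ξ hξ => by
        simp only [f, if_pos (hmem ξ hξ)]
        exact (hyv ξ (hmem ξ hξ)).1.KS_fix hq
    have e3 : ∀ q ∈ X.Fix P Y, ∑ ξ ∈ D1, X.Vl ξ r1 (X.sy P x ξ) q +
        (if none ∈ D then f none q else 0) = 0 := fun q hq => by
      rw [← e2 q hq, ← hsum (fun i => f i q) fun ξ hξ => by simp [f, hξ]]
      exact hD q hq
    rw [hsum t fun ξ hξ => if_neg hξ, e1]
    by_cases hfl : none ∈ D ∧ ∃ e, NE e
    · obtain ⟨h1, h2⟩ := hfl
      obtain ⟨⟨a, ha⟩, h3, h4⟩ := h2.choose_spec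
      simp only [if_pos h1, t, dif_pos h2]
      refine r2' _ a ha h3 h4 fun q hq => ?_
      have h5 := e3 q hq
      simp only [if_pos h1, f, dif_pos h2] at h5
      have hsub : D1 ⊆ X.kinds h2.choose := fun ζ hζ => by
        have := (hyv ζ (hmem ζ hζ)).1.mem
        rwa [ha] at this
      rw [ES_apply, sum_eq_single r1 (fun r _ hr => by
        obtain ⟨b, hb⟩ := h3 r hr
        exact Sv_fix hX hq hb) (by simp), Sv_eq hX _ r1 a, ← sum_sdiff hsub] at h5
      have h6 : ∀ ξ, X.sym h2.choose ξ (P.π r1) a = X.sy P x ξ := fun ξ => by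
        conv_rhs => rw [ha]
        rfl
      simp only [h6] at h5
      rwa [add_comm, add_assoc, CharTwo.add_self_eq_zero, add_zero] at h5
    · have h1 : (if none ∈ D then t none else 0) = 0 := by
        by_cases h2 : none ∈ D
        · simp only [if_pos h2, t, dif_neg fun h => hfl ⟨h2, h⟩]
        · rw [if_neg h2]
      rw [h1, add_zero]
      refine r1' fun q hq => ?_
      have h2 : (if none ∈ D then f none q else 0) = 0 := by
        by_cases h2 : none ∈ D
        · simp only [if_pos h2, f, dif_neg fun h => hfl ⟨h2, h⟩, LinearMap.zero_apply]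
        · rw [if_neg h2]
      have := e3 q hq
      rwa [h2, add_zero] at this
  have hg' := hg.add hX hq
  refine ⟨q, hq, fun ξ y' val h1 h2 => ?_, fun e he => ?_⟩
  · rcases hnew ξ y' h2 with h3 | h3
    · exact hg'.1 ξ y' val h1 h3
    · have h4 : N ξ := ⟨y', val, h3, h1⟩
      obtain rfl : y' = y ξ := h3.unique hp (hyv ξ h4).1
      have h5 := hsol (some ξ)
      simp only [f, t, if_pos h4] at h5
      rw [map_add, h5, hX.uniq _ _ _ _ h1 (hyv ξ h4).2, add_comm, add_assoc,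
        CharTwo.add_self_eq_zero, add_zero]
  · rcases hnewE e he with h3 | h3
    · exact hg'.2 e h3
    · have h4 : ∃ e, NE e := ⟨e, h3⟩
      have h5 := hsol none
      simp only [f, t, dif_pos h4] at h5
      obtain ⟨a, ha⟩ := h3.1
      obtain ⟨a', ha'⟩ := h4.choose_spec.1
      have h6 : h4.choose = e := (It.rule.inj (ha'.symm.trans ha)).1
      rw [h6] at h5
      rw [map_add, h5, add_comm, add_assoc, CharTwo.add_self_eq_zero, add_zero]

end row

/-- **The move of Duplicator.** -/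
theorem forth [Fintype Ξ] [DecidableEq (It Q Ξ E k)] (hX : X.Ok k Kn) {Y : Finset (It Q Ξ E k)}
    (hY : Y.card ≤ k) {p : Par Q Ξ W k} (hg : X.Good P Kn Y p) (x : It Q Ξ E k) :
    ∃ q ∈ X.Fix P Y, X.Good P Kn (insert x Y) (p + q) := by
  cases x with
  | var ξ r a => exact forth_row hX hY hg rfl
  | rule e r a => exact forth_row hX hY hg rfl
  | cross e =>
    obtain ⟨q, hq, h⟩ := forth_cross hX hY hg e
    have hg' := hg.add hX hq
    refine ⟨q, hq, fun ξ y val h1 h2 => hg'.1 ξ y val h1 fun r => ?_, fun e' he => ?_⟩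
    · obtain ⟨u, hu, e1, e2⟩ := h2 r
      rcases mem_insert.1 hu with rfl | hu
      · exact absurd e1 (by simp [It.row])
      · exact ⟨u, hu, e1, e2⟩
    · rcases he with he | he
      · rcases mem_insert.1 he with h1 | h1
        · rw [It.cross.inj h1]
          exact h
        · exact hg'.2 e' (Or.inl h1)
      · refine hg'.2 e' (Or.inr fun r => ?_)
        obtain ⟨a, ha⟩ := he r
        exact ⟨a, (mem_insert.1 ha).resolve_left (by simp)⟩

end XSys

end Vale.Agent.N310X
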